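import Vale.Agent.P237.Petty.Cor.Band20.Bounds

/-!
# P237: the conditions on the constants in dimensions from 20 to 99

The rational conditions are one Boolean, checked by evaluation; the polynomial claims are the
results of the kernel check on the box of each piece.
-/

namespace Vale.Agent.P237.Petty.Cor.Band20

open Set P100.Bernstein

/-- A line below the logarithm, or below `m (v ^ (1 / m) - 1)`, on a range of `v`. -/
structure Seg where
  /-- The left end. -/
  lo : ℚ
  /-- The right end. -/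
  hi : ℚ
  /-- The constant times `e`: constant. -/
  c0 : ℚ
  /-- The constant times `e`: slope. -/
  c1 : ℚ
  /-- The slope times `e`: constant. -/
  k0 : ℚ
  /-- The slope times `e`: slope. -/
  k1 : ℚ

/-- Below `log (1 / 400)`. -/
def logA : ℚ := -5992 / 1000

/-- Below `log (1 / 40)`. -/
def logB : ℚ := -3689 / 1000

/-- Below `log (1 / 5)`. -/
def logC : ℚ := -1610 / 1000

/-- The chord of the power down to zero. -/
def seg0 : Seg := ⟨0, 1 / 400, -1, 0, 400, 400 * logA⟩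

/-- The chord of the logarithm on `[1 / 400, 1 / 40]`. -/
def seg1 : Seg :=
  ⟨1 / 400, 1 / 40, 0, logA - (logB - logA) / (1 / 40 - 1 / 400) * (1 / 400), 0,
    (logB - logA) / (1 / 40 - 1 / 400)⟩

/-- The chord of the logarithm on `[1 / 40, 1 / 5]`. -/
def seg2 : Seg :=
  ⟨1 / 40, 1 / 5, 0, logB - (logC - logB) / (1 / 5 - 1 / 40) * (1 / 40), 0,
    (logC - logB) / (1 / 5 - 1 / 40)⟩

/-- The left end of the claim up to `exp ell`. -/
def aLeft (P : Piece) : ℚ := bif P.ch then 1 / 5 else 0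

/-- The least and the largest of an affine function on the box of a piece are nonnegative. -/
def okAff (d : Data) (P : Piece) (q : Quad) : Bool :=
  decide (0 ≤ q.q0 + q.q1 * P.ya + q.q2 * eLo d) && decide (0 ≤ q.q0 + q.q1 * P.ya + q.q2 * P.eh) &&
    decide (0 ≤ q.q0 + q.q1 * P.yb + q.q2 * eLo d) && decide (0 ≤ q.q0 + q.q1 * P.yb + q.q2 * P.eh)

/-- The rational conditions on a piece. -/
def okPiece (d : Data) (P : Piece) : Bool :=
  decide (0 ≤ P.ya) && decide (P.ya ≤ P.yb) && decide (eLo d ≤ P.eh) &&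
    (decide (eHi d ≤ P.eh) || decide (d.z2 ≤ P.eh * P.ya)) && decide (P.yb * P.eh < 1) &&
    decide (0 ≤ P.xa) && decide (P.xa ^ 2 ≤ P.ya * (1 + 2 * eLo d)) && decide (0 ≤ P.xb) &&
    decide (P.yb * (1 + 2 * P.eh) ≤ P.xb ^ 2) && decide (0 ≤ P.ub) &&
    (bif P.self then decide (P.xb ≤ P.ub) else decide (P.ub ≤ P.xa)) &&
    decide (P.ub ^ 2 * (P.r0 + P.r1 * eLo d) ≤ 2) && decide (P.ub ^ 2 * (P.r0 + P.r1 * P.eh) ≤ 2) &&
    decide (P.ub ^ 2 * P.eh < 1) && okAff d P P.ea && okAff d P P.eb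

/-- The pieces follow each other from zero to beyond the end. -/
def okChain (d : Data) : ℚ → List Piece → Bool
  | a, [] => decide (d.z2 * d.m1 ≤ a)
  | a, P :: L => decide (P.ya = a) && okChain d P.yb L

/-- The largest multiplier of the excess. -/
def nuMax (d : Data) : ℚ := max (d.n0 + d.n1 * eLo d) (d.n0 + d.n1 * eHi d)

/-- The rational conditions on the constants. -/
def okData (d : Data) : Bool :=
  decide (19 ≤ d.m0) && decide (d.m0 ≤ d.m1) && decide (d.m1 ≤ 98) && decide (0 < d.g) &&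
    decide (d.g ≤ 1) && decide (0 < d.a) && decide (0 ≤ d.n0 + d.n1 * eLo d) &&
    decide (0 ≤ d.n0 + d.n1 * eHi d) && decide (0 < d.g0 + d.g1 * eLo d) &&
    decide (0 < d.g0 + d.g1 * eHi d) && decide (nuMax d * (1 + 3 * eHi d) * d.g ^ 2 ≤ d.a) &&
    decide (0 < d.lo) && decide (d.lo ≤ d.hi) && decide (d.hi * eHi d ≤ 2) &&
    decide (0 ≤ d.h0 + d.h1 * eLo d) && decide (0 ≤ d.h0 + d.h1 * eHi d) &&
    decide (0 < d.ma) && decide (0 < d.mb) && decide (0 < d.mc) && decide (0 < d.md) &&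
    decide (0 < d.z2) && decide (d.z2 < 1) &&
    okChain d 0 d.pieces && d.pieces.all (okPiece d)

/-- The range of `s ^ 2` of a piece. -/
def zBox (d : Data) (P : Piece) : List Iv := [between (P.ya * eLo d) (P.yb * P.eh)]

/-- The range of `e`. -/
def eBox (d : Data) : List Iv := [between (eLo d) (eHi d)]

/-- The line below `1 / arc`, checked. -/
def icLow (P : Piece) : Expr :=
  ofRat 1 - quadAt ofRat P.icl (.var 0) * quadAt ofRat P.icl (.var 0) * (ofRat 1 - .var 0)

/-- The line above `1 / arc`, checked. -/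
def icHigh (P : Piece) : Expr :=
  quadAt ofRat P.icu (.var 0) * quadAt ofRat P.icu (.var 0) * (ofRat 1 - .var 0) - ofRat 1

/-- The kernel checks of a piece. -/
structure Checks (d : Data) (P : Piece) : Prop where
  low : ∃ T, certify false (icLow P) (zBox d P) T = true
  high : ∃ T, certify false (icHigh P) (zBox d P) T = true
  highPos : ∃ T, certify false (quadAt ofRat P.icu (.var 0)) (zBox d P) T = true
  rho : ∃ T, certify false (claimRho ofRat P (.var 0)) [between (eLo d) P.eh] T = true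
  top : ∃ T, certify false
    (claimTop ofRat d P (.var 0) (.var 1) (bif P.self then .var 0 else ofRat P.ub)) (boxX d P) T = true
  topE : ∃ T, certify false (claimTopE ofRat d P (.var 0) (.var 1)) (boxX d P) T = true
  upTo : ∀ i, ∃ T, certify false (claimA ofRat d i P (.var 0) (.var 1) (.var 2))
    (box3 d P (aLeft P) d.umax) T = true
  beyond : ∀ i, ∃ T, certify false (claimB ofRat d i P (.var 0) (.var 1) (.var 2))
    (box3 d P 0 1) T = true
  small : P.ch = true → ∀ i, ∀ S ∈ [seg0, seg1, seg2], ∃ T, certify false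
    (claimC ofRat d i P S.c0 S.c1 S.k0 S.k1 (.var 0) (.var 1) (.var 2)) (box3 d P S.lo S.hi) T = true
  mass : ∃ T, certify false (claimMass ofRat d P (.var 0) (.var 1)) (box2 d P) T = true
  rest : ∃ T, certify false (claimRest ofRat d P (.var 0) (.var 1)) (box2 d P) T = true

/-- The largest power of `y`. -/
def degY : List Mono → ℕ
  | [] => 0
  | T :: L => max T.i (degY L)

/-- A sum of terms in `(s ^ 2, e)`, times `e ^ D`. -/
def polyZ (D : ℕ) : List Mono → Expr
  | [] => ofRat 0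
  | T :: L => ofRat T.c * (Expr.var 0 ^ T.i * Expr.var 1 ^ (D - T.i + T.j)) + polyZ D L

/-- The box in `(s ^ 2, e)`. -/
def boxZ (d : Data) : List Iv := [between 0 1, between (eLo d) (eHi d)]

/-- Above `exp (hi e / (1 + e))`, times `(1 + e) ^ 5`. -/
def claimExp (d : Data) : Expr :=
  expTop ofRat d (.var 0) * (ofRat 1 + .var 0) ^ 5 -
    ((ofRat 1 + .var 0) ^ 5 + ofRat d.hi * .var 0 * (ofRat 1 + .var 0) ^ 4 +
      ofRat (d.hi ^ 2 / 2) * .var 0 ^ 2 * (ofRat 1 + .var 0) ^ 3 +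
      ofRat (d.hi ^ 3 / 6) * .var 0 ^ 3 * (ofRat 1 + .var 0) ^ 2 +
      ofRat (d.hi ^ 4 / 24) * .var 0 ^ 4 * (ofRat 1 + .var 0) +
      ofRat (d.hi ^ 5 / 100) * .var 0 ^ 5)

/-- Above the half circle, squared twice. -/
def claimHalf (d : Data) : Expr :=
  (ofRat d.h0 + ofRat d.h1 * .var 0) ^ 4 * (ofRat 2 + ofRat 3 * .var 0) -
    ofRat (157085 / 100000 * (157085 / 100000)) * (ofRat 2 + ofRat 5 * .var 0)

/-- The box of the rational below the ratio of the mass above. -/
def millsBox : List Iv := [between 0 10]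

/-- The conditions on the constants. -/
structure Good (d : Data) : Prop where
  ok : okData d = true
  exp : ∃ T, certify false (claimExp d) (eBox d) T = true
  half : ∃ T, certify false (claimHalf d) (eBox d) T = true
  umax : ∃ T, certify false (ofRat d.umax - expTop ofRat d (.var 0)) (eBox d) T = true
  bot : ∃ T, certify false (expTop ofRat d (.var 0) - expBot ofRat d (.var 0)) (eBox d) T = true
  mills : ∃ T, certify false (claimMills ofRat d (.var 0)) millsBox T = true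
  slope : ∃ T, certify false (claimSlope ofRat d (.var 0)) millsBox T = true
  restPos : ∃ T, certify false (polyZ (degY d.terms) d.terms) (boxZ d) T = true
  massPos : ∃ T, certify false (polyZ (degY d.mass) d.mass) (boxZ d) T = true
  checks : ∀ P ∈ d.pieces, Checks d P

theorem eval_ofRat (x : List ℝ) (q : ℚ) : (ofRat q).eval x = toReal q := by
  simp [ofRat, toReal, Rat.cast_def]

theorem eval_polyAt (x : List ℝ) (Y E : Expr) : ∀ L : List Mono,
    (polyAt ofRat Y E L).eval x = polyAt toReal (Y.eval x) (E.eval x) L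
  | [] => by simp [polyAt, eval_ofRat]
  | T :: L => by simp [polyAt, eval_ofRat, eval_polyAt x Y E L]

theorem mem_between {a b : ℚ} {x : ℝ} (hx : x ∈ Icc (a : ℝ) (b : ℝ)) :
    ((between a b).lo : ℝ) ≤ (between a b).den * x ∧
      ((between a b).den : ℝ) * x ≤ (between a b).hi := by
  have ha : (0 : ℝ) < a.den := Nat.cast_pos.2 a.pos
  have hb : (0 : ℝ) < b.den := Nat.cast_pos.2 b.pos
  obtain ⟨h1, h2⟩ := hx
  rw [Rat.cast_def, div_le_iff₀ ha] at h1
  rw [Rat.cast_def, le_div_iff₀ hb] at h2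
  simp only [between]
  push_cast
  exact ⟨by nlinarith [mul_le_mul_of_nonneg_left h1 hb.le],
    by nlinarith [mul_le_mul_of_nonneg_left h2 ha.le]⟩

theorem inBox1 {a b : ℚ} {x : ℝ} (hx : x ∈ Icc (a : ℝ) (b : ℝ)) : InBox [between a b] [x] :=
  ⟨(mem_between hx).1, (mem_between hx).2, trivial⟩

theorem inBox2 {a b a' b' : ℚ} {x y : ℝ} (hx : x ∈ Icc (a : ℝ) (b : ℝ))
    (hy : y ∈ Icc (a' : ℝ) (b' : ℝ)) : InBox [between a b, between a' b'] [x, y] :=
  ⟨(mem_between hx).1, (mem_between hx).2, (mem_between hy).1, (mem_between hy).2, trivial⟩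

theorem inBox3 {a b a' b' a'' b'' : ℚ} {x y z : ℝ} (hx : x ∈ Icc (a : ℝ) (b : ℝ))
    (hy : y ∈ Icc (a' : ℝ) (b' : ℝ)) (hz : z ∈ Icc (a'' : ℝ) (b'' : ℝ)) :
    InBox [between a b, between a' b', between a'' b''] [x, y, z] :=
  ⟨(mem_between hx).1, (mem_between hx).2, (mem_between hy).1, (mem_between hy).2,
    (mem_between hz).1, (mem_between hz).2, trivial⟩

variable {d : Data} {P : Piece} {y e v X : ℝ}

theorem Checks.upTo_nonneg (h : Checks d P) (i : Bool) (hy : y ∈ Icc (P.ya : ℝ) (P.yb : ℝ))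
    (he : e ∈ Icc (eLo d : ℝ) (P.eh : ℝ)) (hv : v ∈ Icc (aLeft P : ℝ) (d.umax : ℝ)) :
    0 ≤ claimA toReal d i P y e v := by
  obtain ⟨T, hT⟩ := h.upTo i
  have h' := nonneg_of_certify hT (inBox3 hy he hv)
  cases i <;>
    simpa [claimA, free, lin, rem, sig, sigAt, bsq, bdiv, affAt, quadAt, cz, gg, nu, nn, nd, muLo,
      muHi, eval_ofRat, eval_polyAt] using h'

theorem Checks.beyond_nonneg (h : Checks d P) (i : Bool) (hy : y ∈ Icc (P.ya : ℝ) (P.yb : ℝ))
    (he : e ∈ Icc (eLo d : ℝ) (P.eh : ℝ)) (hv : v ∈ Icc (0 : ℝ) 1) :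
    0 ≤ claimB toReal d i P y e v := by
  obtain ⟨T, hT⟩ := h.beyond i
  have h' := nonneg_of_certify hT
    (inBox3 hy he (a'' := 0) (b'' := 1) (by push_cast; exact hv))
  cases i <;>
    simpa [claimB, claimBv, free, lin, rem, sig, sigAt, bsq, bdiv, affAt, quadAt, cz, gg, nu, nn, nd,
      muLo, muHi, expTop, expBot, wtop, eval_ofRat, eval_polyAt] using h'

theorem Checks.small_nonneg (h : Checks d P) (hc : P.ch = true) (i : Bool) {S : Seg}
    (hS : S ∈ [seg0, seg1, seg2]) (hy : y ∈ Icc (P.ya : ℝ) (P.yb : ℝ))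
    (he : e ∈ Icc (eLo d : ℝ) (P.eh : ℝ)) (hv : v ∈ Icc (S.lo : ℝ) (S.hi : ℝ)) :
    0 ≤ claimC toReal d i P S.c0 S.c1 S.k0 S.k1 y e v := by
  obtain ⟨T, hT⟩ := h.small hc i S hS
  have h' := nonneg_of_certify hT (inBox3 hy he hv)
  cases i <;>
    simpa [claimC, lin, rem, sig, sigAt, bsq, bdiv, affAt, quadAt, cz, gg, nu, nn, nd, muLo, muHi,
      eval_ofRat, eval_polyAt] using h'

theorem Checks.mass_nonneg (h : Checks d P) (hy : y ∈ Icc (P.ya : ℝ) (P.yb : ℝ))
    (he : e ∈ Icc (eLo d : ℝ) (P.eh : ℝ)) : 0 ≤ claimMass toReal d P y e := by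
  obtain ⟨T, hT⟩ := h.mass
  have h' := nonneg_of_certify hT (inBox2 hy he)
  simpa [claimMass, affAt, eval_ofRat, eval_polyAt] using h'

theorem Checks.rest_nonneg (h : Checks d P) (hy : y ∈ Icc (P.ya : ℝ) (P.yb : ℝ))
    (he : e ∈ Icc (eLo d : ℝ) (P.eh : ℝ)) : 0 ≤ claimRest toReal d P y e := by
  obtain ⟨T, hT⟩ := h.rest
  have h' := nonneg_of_certify hT (inBox2 hy he)
  simpa [claimRest, affAt, eval_ofRat, eval_polyAt] using h'

theorem Checks.rho_nonneg (h : Checks d P) (he : e ∈ Icc (eLo d : ℝ) (P.eh : ℝ)) :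
    0 ≤ claimRho toReal P e := by
  obtain ⟨T, hT⟩ := h.rho
  have h' := nonneg_of_certify hT (inBox1 he)
  simpa [claimRho, eval_ofRat] using h'

theorem Checks.top_nonneg (h : Checks d P) (hX : X ∈ Icc (P.xa : ℝ) (P.xb : ℝ))
    (he : e ∈ Icc (eLo d : ℝ) (P.eh : ℝ)) :
    0 ≤ claimTop toReal d P X e (bif P.self then X else (P.ub : ℝ)) ∧
      0 ≤ claimTopE toReal d P X e := by
  obtain ⟨T, hT⟩ := h.top
  obtain ⟨T', hT'⟩ := h.topE
  have h' := nonneg_of_certify hT (inBox2 hX he)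
  have h'' := nonneg_of_certify hT' (inBox2 hX he)
  refine ⟨?_, by simpa [claimTopE, wnum, expTop, eval_ofRat] using h''⟩
  cases hs : P.self <;>
    simpa [claimTop, wnum, expTop, millsN, millsD, expLow, intLow, eval_ofRat, toReal, hs] using h'

theorem Checks.arc_quads (h : Checks d P) {s : ℝ} (hs : s ∈ Ioo (0 : ℝ) 1)
    (hz : s ^ 2 ∈ Icc ((P.ya * eLo d : ℚ) : ℝ) ((P.yb * P.eh : ℚ) : ℝ)) :
    quadAt toReal P.icl (s ^ 2) ≤ 1 / arc s ∧ 1 / arc s ≤ quadAt toReal P.icu (s ^ 2) := by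
  have hc : 0 < arc s := arc_pos ⟨by linarith [hs.1], hs.2⟩
  have h2 : arc s ^ 2 = 1 - s ^ 2 := Real.sq_sqrt (by nlinarith [hs.1, hs.2])
  obtain ⟨T1, h1⟩ := h.low
  obtain ⟨T2, h3⟩ := h.high
  obtain ⟨T3, h5⟩ := h.highPos
  have e1 := nonneg_of_certify h1 (inBox1 hz)
  have e2 := nonneg_of_certify h3 (inBox1 hz)
  have e3 := nonneg_of_certify h5 (inBox1 hz)
  simp [icLow, icHigh, quadAt, eval_ofRat, toReal] at e1 e2 e3
  simp only [quadAt, toReal]
  constructor
  · rcases le_or_gt ((P.icl.q0 : ℝ) + P.icl.q1 * s ^ 2 + P.icl.q2 * (s ^ 2 * s ^ 2)) 0 with hn | hn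
    · exact hn.trans (one_div_pos.2 hc).le
    rw [le_div_iff₀ hc]
    refine (pow_le_pow_iff_left₀ (mul_nonneg hn.le hc.le) zero_le_one two_ne_zero).1 ?_
    rw [mul_pow, h2, one_pow]
    linarith
  · rw [div_le_iff₀ hc]
    refine (pow_le_pow_iff_left₀ zero_le_one (mul_nonneg e3 hc.le) two_ne_zero).1 ?_
    rw [mul_pow, h2, one_pow]
    linarith

/-- The rational below the ratio of the mass above. -/
theorem Good.mills_nonneg (h : Good d) (hm : (d.m1 : ℝ) ≤ 98) (hpos : 0 < d.ma ∧ 0 < d.mc ∧ 0 < d.md)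
    (h0 : 0 ≤ X) (h1 : X * X ≤ (d.m1 : ℝ) + 2) :
    0 ≤ claimMills toReal d X ∧ 0 ≤ claimSlope toReal d X ∧ 0 < millsD toReal d X := by
  obtain ⟨T, hT⟩ := h.mills
  obtain ⟨T', hT'⟩ := h.slope
  have hb : InBox millsBox [X] :=
    inBox1 (a := 0) (b := 10) (by push_cast; exact ⟨h0, by nlinarith⟩)
  have e1 := nonneg_of_certify hT hb
  have e2 := nonneg_of_certify hT' hb
  refine ⟨by simpa [claimMills, millsN, millsD, eval_ofRat] using e1,
    by simpa [claimSlope, millsN, millsD, eval_ofRat] using e2, ?_⟩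
  obtain ⟨p1, p2, p3⟩ := hpos
  have q1 : (0 : ℝ) < d.ma := by exact_mod_cast p1
  have q2 : (0 : ℝ) < d.mc := by exact_mod_cast p2
  have q3 : (0 : ℝ) < d.md := by exact_mod_cast p3
  simp only [millsD, toReal]
  positivity

theorem eval_polyZ {z : ℝ} (he : e ≠ 0) : ∀ (D : ℕ) (L : List Mono), degY L ≤ D →
    (polyZ D L).eval [z, e] = polyAt toReal (z / e) e L * e ^ D
  | D, [], _ => by simp [polyZ, polyAt, eval_ofRat, toReal]
  | D, T :: L, h => by
    have h1 : T.i ≤ D := le_trans (le_max_left _ _) h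
    have ih := eval_polyZ (z := z) he D L (le_trans (le_max_right _ _) h)
    simp only [polyZ, polyAt, Expr.eval_add, Expr.eval_mul, Expr.eval_pow, Expr.eval_var, ih,
      eval_ofRat, List.getD_cons_zero, List.getD_cons_succ]
    obtain ⟨k, rfl⟩ := Nat.exists_eq_add_of_le h1
    rw [Nat.add_sub_cancel_left, div_pow, pow_add, pow_add]
    field_simp

/-- The whole remainder and the mass are nonnegative. -/
theorem Good.poly_nonneg (h : Good d) {z : ℝ} (hz : z ∈ Icc (0 : ℝ) 1)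
    (he : e ∈ Icc (eLo d : ℝ) (eHi d : ℝ)) (he0 : 0 < e) :
    0 ≤ polyAt toReal (z / e) e d.terms ∧ 0 ≤ polyAt toReal (z / e) e d.mass := by
  have hb : InBox (boxZ d) [z, e] := inBox2 (a := 0) (b := 1) (by push_cast; exact hz) he
  obtain ⟨T, hT⟩ := h.restPos
  obtain ⟨T', hT'⟩ := h.massPos
  have e1 := nonneg_of_certify hT hb
  have e2 := nonneg_of_certify hT' hb
  rw [eval_polyZ he0.ne' _ _ le_rfl] at e1 e2
  exact ⟨nonneg_of_mul_nonneg_left e1 (pow_pos he0 _), nonneg_of_mul_nonneg_left e2 (pow_pos he0 _)⟩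

end Vale.Agent.P237.Petty.Cor.Band20
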