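import Vale.Agent.P237.Petty.Cor.Band20.N20a.Main
import Vale.Agent.P237.Petty.Cor.Band20.N20b.Main
import Vale.Agent.P237.Petty.Cor.Band20.N20m.Main
import Vale.Agent.P237.Petty.Cor.Band20.N25a.Main
import Vale.Agent.P237.Petty.Cor.Band20.N25b.Main
import Vale.Agent.P237.Petty.Cor.Band20.N33.Main
import Vale.Agent.P237.Petty.Cor.Band20.N41.Main
import Vale.Agent.P237.Petty.Cor.Band20.N50.Main
import Vale.Agent.P237.Petty.Cor.Band20.N70.Main

/-!
# P237: the middle values in dimensions from 20 to 99

The groups of dimensions put together.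
-/

namespace Vale.Agent.P237.Petty.Cor.Band20

/-- The cell, dimensions 33 to 99, values `119 / 50` to `6` over the dimension. -/
theorem corCell_band33 {p : ℕ} (h1 : 31 ≤ p) (h2 : p ≤ 97) :
    CorCell p ((119 / 50) / ((p : ℝ) + 2)) (6 / ((p : ℝ) + 2)) := by
  rcases le_or_gt (p + 2) 40 with h | h
  · exact N33.corCell (by omega) h
  rcases le_or_gt (p + 2) 49 with h' | h'
  · exact N41.corCell (by omega) h'
  rcases le_or_gt (p + 2) 69 with h'' | h''
  · exact N50.corCell (by omega) h''
  · exact N70.corCell (by omega) (by omega)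

/-- The cell, dimensions 20 to 32, values `119 / 50` to `7` over the dimension. -/
theorem corCell_band20 {p : ℕ} (h1 : 18 ≤ p) (h2 : p ≤ 30) :
    CorCell p ((119 / 50) / ((p : ℝ) + 2)) (7 / ((p : ℝ) + 2)) := by
  rcases le_or_gt (p + 2) 24 with h | h
  · exact ((N20a.corCell (by omega) h).append (N20m.corCell (by omega) h)).append
      (N20b.corCell (by omega) h)
  · exact (N25a.corCell (by omega) (by omega)).append (N25b.corCell (by omega) (by omega))

end Vale.Agent.P237.Petty.Cor.Band20
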