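import Vale.Agent.P237.Petty.Cor.Band20.N25c.Main
import Vale.Agent.P237.Petty.Cor.Band20.N25d.Main
import Vale.Agent.P237.Petty.Cor.Band20.N25e.Main
import Vale.Agent.P237.Petty.Cor.Band20.N25f.Main
import Vale.Agent.P237.Petty.Cor.Band20.N25g.Main
import Vale.Agent.P237.Petty.Cor.Band20.N29g.Main

/-!
# P237: dimensions 25 to 32, from seven over the dimension to one
-/

namespace Vale.Agent.P237.Petty.Cor

variable {p : ℕ}

/-- The bounds from `7 / (p + 2)` to `1` in the dimensions `25` to `32`. -/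
theorem corCell_upper25 (h1 : 25 ≤ p + 2) (h2 : p + 2 ≤ 32) :
    CorCell p (7 / ((p : ℝ) + 2)) 1 := by
  have hn : (0 : ℝ) < (p : ℝ) + 2 := by positivity
  intro ell hl
  have hl1 := hl.1
  rcases le_or_gt ell (10 / ((p : ℝ) + 2)) with a | a
  · exact Band20.N25c.corCell h1 h2 ell ⟨hl.1, a⟩
  rcases le_or_gt ell (15 / ((p : ℝ) + 2)) with b | b
  · exact Band20.N25d.corCell h1 h2 ell ⟨a.le, b⟩
  rcases le_or_gt ell ((37 / 2) / ((p : ℝ) + 2)) with c | c
  · exact Band20.N25e.corCell h1 h2 ell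
      ⟨(div_le_div_of_nonneg_right (by norm_num) hn.le).trans b.le, c⟩
  rcases le_or_gt ell (24 / ((p : ℝ) + 2)) with d | d
  · exact Band20.N25f.corCell h1 h2 ell
      ⟨(div_le_div_of_nonneg_right (by norm_num) hn.le).trans c.le, d⟩
  rcases le_or_gt (p + 2) 28 with e | e
  · exact Band20.N25g.corCell h1 e ell
      ⟨(div_le_div_of_nonneg_right (by norm_num) hn.le).trans d.le, hl.2⟩
  · exact Band20.N29g.corCell e h2 ell
      ⟨(div_le_div_of_nonneg_right (by norm_num) hn.le).trans d.le, hl.2⟩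

end Vale.Agent.P237.Petty.Cor
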