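import Vale.Agent.P100.Bernstein.Cert
import Mathlib.Data.Rat.Cast.Defs

/-!
# P237: the polynomials of a cell in dimensions from 20 to 99

The claims of a cell whose constants are affine in `e = 1 / (p + 1)`, written once over the reals
and over the expressions of the kernel check, with `y = (p + 1) s ^ 2`, so `s ^ 2 = y e`, and
`v = 1 / r`.
-/

namespace Vale.Agent.P237.Petty.Cor.Band20

/-- A term `c y ^ i e ^ j`. -/
structure Mono where
  /-- The power of `y`. -/
  i : ℕ
  /-- The power of `e`. -/
  j : ℕ
  /-- The coefficient. -/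
  c : ℚ

/-- The coefficients of a quadratic. -/
structure Quad where
  /-- The constant. -/
  q0 : ℚ
  /-- The slope. -/
  q1 : ℚ
  /-- The square. -/
  q2 : ℚ

/-- A range of the abscissa, with the bounds used on it. -/
structure Piece where
  /-- The left end, in `(p + 1) s ^ 2`. -/
  ya : ℚ
  /-- The right end. -/
  yb : ℚ
  /-- The largest `1 / (p + 1)`. -/
  eh : ℚ
  /-- Below the left end, in `√(p + 3) s`. -/
  xa : ℚ
  /-- Above the right end, in `√(p + 3) s`. -/
  xb : ℚ
  /-- Below `1 / arc`, in `s ^ 2`. -/
  icl : Quad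
  /-- Above `1 / arc`, in `s ^ 2`. -/
  icu : Quad
  /-- The share of `t - s` given to the lower box: constant, slope in `y`, slope in `e`. -/
  ea : Quad
  /-- The share of `t - s` given to the chord beyond `exp ell`. -/
  eb : Quad
  /-- The top of `1 / r`: constant. -/
  w0 : ℚ
  /-- The top of `1 / r`: slope in `y`. -/
  w1 : ℚ
  /-- The top of `1 / r`: slope in `e`. -/
  w2 : ℚ
  /-- The top of `1 / r`: slope in `y e`. -/
  w3 : ℚ
  /-- Whether the base of the hazard bound is the abscissa itself. -/
  self : Bool
  /-- The base of the hazard bound, or its largest value, times `√(p + 3)`. -/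
  ub : ℚ
  /-- The factor in the exponent at the base: constant. -/
  r0 : ℚ
  /-- The factor in the exponent at the base: slope. -/
  r1 : ℚ
  /-- Whether small `v` use chords of the logarithm. -/
  ch : Bool
  /-- The remainder on the piece, over `e ^ 2`. -/
  rp : List Mono

/-- The constants of a cell. -/
structure Data where
  /-- The least `p + 1`. -/
  m0 : ℕ
  /-- The largest `p + 1`. -/
  m1 : ℕ
  /-- The slope of the test. -/
  g : ℚ
  /-- The multiplier of the shadow: constant. -/
  g0 : ℚ
  /-- The multiplier of the shadow: slope in `e`. -/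
  g1 : ℚ
  /-- The multiplier of the excess: constant. -/
  n0 : ℚ
  /-- The multiplier of the excess: slope in `e`. -/
  n1 : ℚ
  /-- The pole of the square potential. -/
  a : ℚ
  /-- The linear potential: constant. -/
  l0 : ℚ
  /-- The linear potential: first power. -/
  l1 : ℚ
  /-- The linear potential: second power. -/
  l2 : ℚ
  /-- The linear potential: third power, with one factor `e`. -/
  l3 : ℚ
  /-- The lower end of the cell, times the dimension. -/
  lo : ℚ
  /-- The upper end of the cell, times the dimension. -/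
  hi : ℚ
  /-- Above `exp ell`: slope in `e`. -/
  u1 : ℚ
  /-- Above `exp ell`: square in `e`. -/
  u2 : ℚ
  /-- Below the top of `exp ell`: constant. -/
  v00 : ℚ
  /-- Below the top of `exp ell`: slope. -/
  v01 : ℚ
  /-- Above `exp ell`. -/
  umax : ℚ
  /-- Above `half (p + 1) √(p + 3)`: constant. -/
  h0 : ℚ
  /-- Above `half (p + 1) √(p + 3)`: slope in `e`. -/
  h1 : ℚ
  /-- The rational below the ratio of the mass above: numerator, slope. -/
  ma : ℚ
  /-- The rational below the ratio of the mass above: numerator, constant. -/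
  mb : ℚ
  /-- The rational below the ratio of the mass above: denominator, slope. -/
  mc : ℚ
  /-- The rational below the ratio of the mass above: denominator, constant. -/
  md : ℚ
  /-- The end of the pieces, for `s ^ 2`. -/
  z2 : ℚ
  /-- The power of `s ^ 2` beyond the pieces. -/
  jt : ℕ
  /-- The pieces. -/
  pieces : List Piece
  /-- The whole remainder, over `e ^ 2`, at the lower end. -/
  terms : List Mono
  /-- The function against `ell`. -/
  mass : List Mono

section

variable {α : Type} [Add α] [Sub α] [Mul α] [Pow α ℕ] (C : ℚ → α) (d : Data)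

/-- A sum of terms. -/
def polyAt (y e : α) : List Mono → α
  | [] => C 0
  | T :: L => C T.c * (y ^ T.i * e ^ T.j) + polyAt y e L

/-- A quadratic. -/
def quadAt (q : Quad) (z : α) : α := C q.q0 + C q.q1 * z + C q.q2 * (z * z)

/-- An affine function of `y` and `e`. -/
def affAt (q : Quad) (y e : α) : α := C q.q0 + C q.q1 * y + C q.q2 * e

/-- `1 - s ^ 2`. -/
def cz (y e : α) : α := C 1 - y * e

/-- The multiplier of the shadow. -/
def gg (e : α) : α := C d.g0 + C d.g1 * e

/-- The multiplier of the excess. -/
def nu (e : α) : α := C d.n0 + C d.n1 * e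

/-- The linear potential, over `e`. -/
def nn (y e : α) : α := C d.l0 + y * (C d.l1 + y * (C d.l2 + C d.l3 * (y * e)))

/-- Its derivative. -/
def nd (y e : α) : α := C d.l1 + y * (C (2 * d.l2) + C (3 * d.l3) * (y * e))

/-- Below the stationary constant. -/
def muLo (e : α) : α := C (3 / 4) - C (72 / 25) * e + C (32 / 5) * (e * e)

/-- Above the stationary constant. -/
def muHi (e : α) : α := C (3 / 4) - C (13 / 5) * e + C (61 / 10) * (e * e)

/-- The slope in `(t - s) / s`, times `(1 - z) / y`, at given `1 / arc` and stationary constant. -/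
def sigAt (y e ic mu : α) : α :=
  gg C d e * (C 1 - e) * ic +
    cz C y e * (C 2 * e * nd C d y e - C 2 * (C 1 + C 3 * e) * (nu C d e + C (1 / 2) * mu)) -
    e * nn C d y e

/-- The slope at one of its two ends. -/
def sig (i : Bool) (P : Piece) (y e : α) : α :=
  bif i then sigAt C d y e (quadAt C P.icu (y * e)) (muLo C e)
  else sigAt C d y e (quadAt C P.icl (y * e)) (muHi C e)

/-- The coefficient of `((t - s) / s) ^ 2`. -/
def bsq (y e : α) : α :=
  C d.a * (y + y * e + C 1) - nu C d e * (y + C 3 * (y * e)) * C (d.g * d.g)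

/-- Its part in `1 / v`. -/
def bdiv (y e : α) : α := C (2 * d.g * (1 + d.g)) * (nu C d e * (y * e))

/-- The coefficient of `(t - s) / s`, times `(1 - z) v`, less the share `η`. -/
def lin (i : Bool) (P : Piece) (y e v η : α) : α :=
  v * (y * (sig C d i P y e - η)) +
    cz C y e * (C (-2 * d.a) * cz C y e * v + C (2 * (1 - d.g * d.g)) * (nu C d e * (y * e))) *
      (v - C 1)

/-- The part free of `t - s`, times `2 (v + 2) v`. -/
def free (P : Piece) (y e v R : α) : α :=
  C 2 * (v + C 2) * v * (e * nn C d y e * (v - C 1) + R) +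
    C (4 * (1 + d.g)) * (nu C d e * cz C y e) * (v + C 2) * ((v - C 1) * (v - C 1)) -
    gg C d e * quadAt C P.icu (y * e) * (C 2 * v + C 1) * ((v - C 1) * (v - C 1))

/-- The remainder on a piece. -/
def rem (P : Piece) (y e : α) : α := e * e * polyAt C y e P.rp

/-- Above `exp ell`. -/
def expTop (e : α) : α := C 1 + e * (C d.u1 + C d.u2 * e)

/-- Below the top of `exp ell`. -/
def expBot (e : α) : α := C d.v00 + C d.v01 * e

/-- The top of `1 / r`. -/
def wtop (P : Piece) (y e : α) : α := C P.w0 + C P.w1 * y + C P.w2 * e + C P.w3 * (y * e)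

/-- The claim up to `exp ell`. -/
def claimA (i : Bool) (P : Piece) (y e v : α) : α :=
  C 4 * (bsq C d y e * v + bdiv C d y e) * (cz C y e * cz C y e) *
      free C d P y e v (rem C P y e) -
    C 2 * (v + C 2) * (lin C d i P y e v (affAt C P.ea y e) * lin C d i P y e v (affAt C P.ea y e))

/-- The claim beyond `exp ell`, at given `v`. -/
def claimBv (i : Bool) (P : Piece) (y e v : α) : α :=
  C 4 * (bsq C d y e * v + bdiv C d y e) * (cz C y e * cz C y e) *
      (((C 1 + C 2 * e) * y + C 1) * free C d P y e v (rem C P y e) +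
        C 2 * (v + C 2) * v * (affAt C P.eb y e * y * (v - expTop C d e))) -
    C 2 * (v + C 2) * ((C 1 + C 2 * e) * y + C 1) *
      (lin C d i P y e v (affAt C P.eb y e) * lin C d i P y e v (affAt C P.eb y e))

/-- The claim beyond `exp ell`. -/
def claimB (i : Bool) (P : Piece) (y e σ : α) : α :=
  claimBv C d i P y e (expBot C d e + σ * (wtop C P y e - expBot C d e))

/-- The claim where the shadow is above a line `c + k v`, whose coefficients times `e` are affine
in `e`. -/
def claimC (i : Bool) (P : Piece) (c0 c1 k0 k1 : ℚ) (y e v : α) : α :=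
  C 4 * (bsq C d y e * v + bdiv C d y e) * (cz C y e * cz C y e) *
      (e * v * (e * nn C d y e * (v - C 1) + rem C P y e) +
        C (2 * (1 + d.g)) * e * (nu C d e * cz C y e) * ((v - C 1) * (v - C 1)) +
        v * (gg C d e * quadAt C P.icu (y * e)) *
          (C c0 + C c1 * e + (C k0 + C k1 * e) * v - e * (v - C 1))) -
    e * (lin C d i P y e v (affAt C P.ea y e) * lin C d i P y e v (affAt C P.ea y e))

/-- The rational below the ratio of the mass above: numerator. -/
def millsN (X : α) : α := X * X + C d.ma * X + C d.mb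

/-- The rational below the ratio of the mass above: denominator. -/
def millsD (X : α) : α := ((X + C d.ma) * X + C d.mc) * X + C d.md

/-- Below `exp (-x)`. -/
def expLow (x : α) : α :=
  C 1 + x * (C (-1) + x * (C (1 / 2) + x * (C (-1 / 6) + x * (C (1 / 24) + x * C (-1 / 120)))))

/-- Below the integral of `exp (-w t ^ 2 / 2)` on `[0, 1]`. -/
def intLow (w : α) : α :=
  C 1 + w * (C (-1 / 6) + w * (C (1 / 40) + w * (C (-1 / 336) + w * (C (1 / 3456) +
    w * C (-1 / 42240)))))

/-- The numerator of the top of `1 / r`, at `X = √(p + 3) s`. -/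
def wnum (P : Piece) (X e : α) : α :=
  (C P.w0 + C P.w2 * e) * (C 1 + C 2 * e) + (C P.w1 + C P.w3 * e) * (X * X)

/-- The top is above the hazard bound at the base `U`. -/
def claimTop (P : Piece) (X e U : α) : α :=
  wnum C P X e * (C 1 + C 2 * e - X * X * e) * millsN C d X *
      expLow C (C (1 / 2) * (U * U * (C P.r0 + C P.r1 * e))) -
    (C 1 + C 2 * e) * (C 1 + C 2 * e) *
      (expTop C d e * (C d.h0 + C d.h1 * e) - U * intLow C (U * U * (C P.r0 + C P.r1 * e))) *
      millsD C d X

/-- The top is above `exp ell`. -/
def claimTopE (P : Piece) (X e : α) : α :=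
  wnum C P X e * (C 1 + C 2 * e - X * X * e) - (C 1 + C 2 * e) * (C 1 + C 2 * e) * expTop C d e

/-- The factor in the exponent at the base. -/
def claimRho (P : Piece) (e : α) : α :=
  (C P.r0 + C P.r1 * e) * (C 1 + C 2 * e) * (C 2 * (C 1 + C 2 * e - C (P.ub * P.ub) * e)) -
    (C 2 * (C 1 + C 2 * e - C (P.ub * P.ub) * e) + C (P.ub * P.ub) * e)

/-- The mass pays the lower box. -/
def claimMass (P : Piece) (y e : α) : α :=
  C d.hi * polyAt C y e d.mass * (C 1 + C 2 * e) * ((C 1 + C 2 * e) * y + C 3) -
    (C d.u1 + C d.u2 * e) * (C 1 + e) * affAt C P.ea y e * ((C 1 + C 3 * e) * y + C 2)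

/-- The whole remainder covers that of the piece and the lower box. -/
def claimRest (P : Piece) (y e : α) : α :=
  e * (polyAt C y e d.terms - polyAt C y e P.rp) * (C 1 + C 2 * e) *
      ((C 1 + C 2 * e) * y + C 3) -
    C (d.lo / d.hi) * (C d.u1 + C d.u2 * e) * affAt C P.ea y e * ((C 1 + C 3 * e) * y + C 2)

/-- The inequality of the rational below the ratio of the mass above. -/
def claimMills (X : α) : α :=
  millsD C d X * millsD C d X - X * (millsN C d X * millsD C d X) +
    (C 1 - C (1 / ((d.m1 : ℚ) + 2)) * (X * X)) *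
      ((C 2 * X + C d.ma) * millsD C d X -
        millsN C d X * (C 3 * (X * X) + C (2 * d.ma) * X + C d.mc))

/-- The rational below the ratio of the mass above decreases. -/
def claimSlope (X : α) : α :=
  millsN C d X * (C 3 * (X * X) + C (2 * d.ma) * X + C d.mc) - (C 2 * X + C d.ma) * millsD C d X

end

open P100.Bernstein

/-- A rational as an expression. -/
def ofRat (q : ℚ) : Expr := .frac q.num q.den

/-- An interval with rational ends. -/
def between (a b : ℚ) : Iv := ⟨a.num * b.den, b.num * a.den, a.den * b.den⟩

/-- The least `e`. -/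
def eLo (d : Data) : ℚ := 1 / d.m1

/-- The largest `e`. -/
def eHi (d : Data) : ℚ := 1 / d.m0

/-- The box of a piece. -/
def box2 (d : Data) (P : Piece) : List Iv := [between P.ya P.yb, between (eLo d) P.eh]

/-- The box of a piece, with `v`. -/
def box3 (d : Data) (P : Piece) (a b : ℚ) : List Iv :=
  [between P.ya P.yb, between (eLo d) P.eh, between a b]

/-- The box in `√(p + 3) s`. -/
def boxX (d : Data) (P : Piece) : List Iv := [between P.xa P.xb, between (eLo d) P.eh]

end Vale.Agent.P237.Petty.Cor.Band20
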