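import Vale.Agent.P237.Petty.Cor.MillsUp
import Vale.Agent.P237.Petty.Cor.Bridge
import Vale.Agent.P237.Petty.Cor.RateBound
import Vale.Agent.P237.Petty.Cor.Mid36.Cuts
import Vale.Agent.P237.Petty.Cor.Band20.Defs

/-!
# P237: scalar bounds in dimensions from 20 to 99

The stationary constant between two quadratics in `e = 1 / (p + 1)`, the half circle times
`√(p + 3)`, the power of the circle and its primitive at a base, a rational lower bound of the mass
above an abscissa, and three inequalities of a state.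
-/

namespace Vale.Agent.P237.Petty.Cor.Band20

open MeasureTheory Set intervalIntegral
open Ident (half rate)
open Lift (circLow circHigh)

variable {p : ℕ}

/-- A rational as a real number. -/
noncomputable def toReal (q : ℚ) : ℝ := q

/-- The stationary constant between two quadratics. -/
theorem muMin_bounds (hp : 18 ≤ p) (hp' : p ≤ 97) :
    3 / 4 - 72 / 25 * (1 / ((p : ℝ) + 1)) + 32 / 5 * (1 / ((p : ℝ) + 1) * (1 / ((p : ℝ) + 1))) ≤
        Ident.muMin p ∧
      Ident.muMin p ≤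
        3 / 4 - 13 / 5 * (1 / ((p : ℝ) + 1)) +
          61 / 10 * (1 / ((p : ℝ) + 1) * (1 / ((p : ℝ) + 1))) := by
  obtain ⟨j, rfl⟩ : ∃ j, p = j + 1 := ⟨p - 1, by omega⟩
  have hj : (17 : ℝ) ≤ j := by
    have : 17 ≤ j := by omega
    exact_mod_cast this
  have hj' : (j : ℝ) ≤ 96 := by
    have : j ≤ 96 := by omega
    exact_mod_cast this
  have hb := Ident.b0_pos (j + 1)
  have h1 := (b0_sq_bounds (j + 1)).1
  have h2 := LargeN.ratSq_succ_le j
  rw [Centre.ratSq_eq, LargeN.low, div_div_eq_mul_div, div_pow, div_mul_eq_mul_div, div_div,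
    le_div_iff₀ (by positivity)] at h2
  rw [div_le_iff₀ (by positivity)] at h1
  push_cast at h1 h2 ⊢
  set B := Ident.b0 (j + 1) ^ 2 with hB
  have hB0 : 0 < B := by positivity
  have e : Ident.muMin (j + 1) =
      ((j : ℝ) + 3) * ((j : ℝ) + 1) * (((j : ℝ) + 5) * (1 - B) - 1) / (2 * ((j : ℝ) + 5) * B) := by
    rw [Ident.muMin, hB]
    push_cast
    field_simp
    ring
  obtain ⟨k, hk, hjk⟩ : ∃ k : ℝ, 0 ≤ k ∧ (j : ℝ) = k + 17 := ⟨(j : ℝ) - 17, by linarith, by ring⟩
  have hk' : k ≤ 79 := by linarith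
  rw [e]
  clear_value B
  rw [hjk] at h1 h2 ⊢
  have hk2 : 0 ≤ k * k := mul_nonneg hk hk
  have hk3 : 0 ≤ k * k * k := mul_nonneg hk2 hk
  have hk4 : 0 ≤ k * k * k * k := mul_nonneg hk3 hk
  constructor
  · rw [show (3 : ℝ) / 4 - 72 / 25 * (1 / (k + 17 + 1 + 1)) +
        32 / 5 * (1 / (k + 17 + 1 + 1) * (1 / (k + 17 + 1 + 1))) =
      (75 * (k + 19) ^ 2 - 288 * (k + 19) + 640) / (100 * (k + 19) ^ 2) by field_simp; ring,
      div_le_div_iff₀ (by positivity) (by positivity)]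
    nlinarith [mul_le_mul_of_nonneg_left h2 hk, mul_le_mul_of_nonneg_left h2 hk2,
      mul_le_mul_of_nonneg_left h2 hk3, mul_le_mul_of_nonneg_left h2 hk4,
      mul_nonneg hk2 (sub_nonneg.2 hk'), mul_nonneg hk3 (sub_nonneg.2 hk'),
      mul_nonneg hk4 (sub_nonneg.2 hk')]
  · rw [show (3 : ℝ) / 4 - 13 / 5 * (1 / (k + 17 + 1 + 1)) +
        61 / 10 * (1 / (k + 17 + 1 + 1) * (1 / (k + 17 + 1 + 1))) =
      (75 * (k + 19) ^ 2 - 260 * (k + 19) + 610) / (100 * (k + 19) ^ 2) by field_simp; ring,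
      div_le_div_iff₀ (by positivity) (by positivity)]
    nlinarith [mul_le_mul_of_nonneg_left h1 hk, mul_le_mul_of_nonneg_left h1 hk2,
      mul_le_mul_of_nonneg_left h1 hk3, mul_le_mul_of_nonneg_left h1 hk4,
      mul_nonneg hk2 (sub_nonneg.2 hk'), mul_nonneg hk3 (sub_nonneg.2 hk'),
      mul_nonneg hk4 (sub_nonneg.2 hk')]

/-- The half circle, squared twice. -/
theorem half_sq_sq_le (p : ℕ) :
    (half (p + 1) ^ 2 * ((p : ℝ) + 3)) ^ 2 ≤
      157085 / 100000 * (157085 / 100000) * ((2 * (p : ℝ) + 7) / (2 * (p : ℝ) + 5)) := by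
  have hl := LargeN.low_le_ratSq (p + 1)
  rw [LargeN.low, LargeN.ratSq, Ident.circ_eq_half, Ident.circ_eq_half,
    mul_div_mul_left _ _ two_ne_zero] at hl
  have hm := LargeN.circ_mul_succ (p + 1)
  rw [Ident.circ_eq_half, Ident.circ_eq_half] at hm
  push_cast at hl hm
  have hA := Ident.half_pos (p + 1)
  rw [show 2 * ((p : ℝ) + 1) + 3 = 2 * p + 5 by ring, show 2 * ((p : ℝ) + 1) + 5 = 2 * p + 7 by ring,
    show (half (p + 1 + 1) / half (p + 1)) ^ 2 = half (p + 1 + 1) ^ 2 / half (p + 1) ^ 2 from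
      div_pow _ _ _, div_le_div_iff₀ (by positivity) (by positivity)] at hl
  have hAB : half (p + 1) * half (p + 1 + 1) * ((p : ℝ) + 3) = Real.pi / 2 := by
    rw [show (p : ℝ) + 1 + 2 = p + 3 by ring, eq_div_iff (by positivity)] at hm
    linarith
  have hpi : Real.pi / 2 ≤ 157085 / 100000 := by linarith [Real.pi_lt_d4]
  have h1 := mul_le_mul_of_nonneg_left hl
    (show 0 ≤ half (p + 1) ^ 2 * ((p : ℝ) + 3) ^ 2 by positivity)
  have h2 := pow_le_pow_left₀ (by positivity) hpi 2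
  have h3 := mul_le_mul_of_nonneg_right h2 (show 0 ≤ 2 * (p : ℝ) + 7 by positivity)
  rw [mul_div_assoc', le_div_iff₀ (by positivity)]
  have e1 : half (p + 1) ^ 2 * ((p : ℝ) + 3) ^ 2 * (half (p + 1 + 1) ^ 2 * (2 * (p : ℝ) + 7)) =
      (Real.pi / 2) ^ 2 * (2 * (p : ℝ) + 7) := by rw [← hAB]; ring
  rw [e1] at h1
  linarith

/-- The lower polynomial of the exponential. -/
theorem expLow_le {x : ℝ} (hx : 0 ≤ x) : expLow toReal x ≤ Real.exp (-x) := by
  simp only [expLow, toReal]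
  push_cast
  have hd : ∀ t : ℝ, HasDerivAt
      (fun t => (1 - t + t ^ 2 / 2 - t ^ 3 / 6 + t ^ 4 / 24 - t ^ 5 / 120) * Real.exp t)
      (-(t ^ 5 / 120) * Real.exp t) t := by
    intro t
    refine (((((((hasDerivAt_id' t).const_sub 1).add ((hasDerivAt_pow 2 t).div_const 2)).sub
      ((hasDerivAt_pow 3 t).div_const 6)).add ((hasDerivAt_pow 4 t).div_const 24)).sub
      ((hasDerivAt_pow 5 t).div_const 120)).mul (Real.hasDerivAt_exp t)).congr_deriv ?_
    simp only [Pi.add_apply, Pi.sub_apply]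
    push_cast
    ring
  have hanti := antitoneOn_of_hasDerivWithinAt_nonpos (convex_Ici (0 : ℝ))
    (fun t _ => (hd t).continuousAt.continuousWithinAt)
    (fun t _ => (hd t).hasDerivWithinAt) fun t ht => by
      rw [interior_Ici] at ht
      exact mul_nonpos_of_nonpos_of_nonneg (neg_nonpos.2 (div_nonneg (pow_nonneg ht.le 5) (by norm_num)))
        (Real.exp_pos t).le
  have h := hanti (mem_Ici.2 le_rfl) (mem_Ici.2 hx) hx
  simp only [Real.exp_zero] at h
  rw [Real.exp_neg, ← one_div, le_div_iff₀ (Real.exp_pos x)]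
  refine le_trans (le_of_eq (by ring)) (h.trans (le_of_eq (by norm_num)))

/-- The exponential is below its bound near zero. -/
theorem pow_arc_ge {v u ρ : ℝ} (hv : 0 ≤ v) (hvu : v ≤ u) (hu1 : u < 1)
    (hρ : ((p : ℝ) + 1) / ((p : ℝ) + 3) * (1 + u ^ 2 / (2 * (1 - u ^ 2))) ≤ ρ) :
    Real.exp (-(((p : ℝ) + 3) * ρ * v ^ 2 / 2)) ≤ arc v ^ (p + 1) := by
  have hv1 : 0 < 1 - v ^ 2 := by nlinarith
  have hu2 : 0 < 1 - u ^ 2 := by nlinarith
  have hy : 1 ≤ 1 / (1 - v ^ 2) := by rw [le_div_iff₀ hv1]; nlinarith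
  have hl := Mid36.log_le_half hy
  rw [one_div_one_div, one_div, Real.log_inv] at hl
  have hlog : -Real.log (1 - v ^ 2) ≤ v ^ 2 * (1 + v ^ 2 / (2 * (1 - v ^ 2))) := by
    refine hl.trans (le_of_eq ?_)
    field_simp
    ring
  have hmono : v ^ 2 / (2 * (1 - v ^ 2)) ≤ u ^ 2 / (2 * (1 - u ^ 2)) := by
    rw [div_le_div_iff₀ (by positivity) (by positivity)]
    nlinarith [pow_le_pow_left₀ hv hvu 2]
  have hp3 : (0 : ℝ) < (p : ℝ) + 3 := by positivity
  rw [div_mul_eq_mul_div, div_le_iff₀ hp3] at hρ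
  have key : ((p : ℝ) + 1) * -Real.log (1 - v ^ 2) ≤ ((p : ℝ) + 3) * ρ * v ^ 2 := by
    refine (mul_le_mul_of_nonneg_left hlog (by positivity)).trans ?_
    have h1 := mul_le_mul_of_nonneg_left hmono (show 0 ≤ ((p : ℝ) + 1) * v ^ 2 by positivity)
    have h2 := mul_le_mul_of_nonneg_right hρ (sq_nonneg v)
    linarith
  have hc : 0 < arc v := Real.sqrt_pos.2 hv1
  rw [← Real.exp_log (pow_pos hc (p + 1)), Real.log_pow, arc, Real.log_sqrt hv1.le]
  refine Real.exp_le_exp.2 ?_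
  push_cast
  linarith

/-- The power at a base and its primitive, in `U = √(p + 3) u`. -/
theorem base_bounds {u ρ : ℝ} (hu : 0 ≤ u) (hu1 : u < 1)
    (hρ : ((p : ℝ) + 1) / ((p : ℝ) + 3) * (1 + u ^ 2 / (2 * (1 - u ^ 2))) ≤ ρ) :
    expLow toReal (1 / 2 * (√((p : ℝ) + 3) * u * (√((p : ℝ) + 3) * u) * ρ)) ≤ arc u ^ (p + 1) ∧
      √((p : ℝ) + 3) * u * intLow toReal (√((p : ℝ) + 3) * u * (√((p : ℝ) + 3) * u) * ρ) ≤
        √((p : ℝ) + 3) * circLow p u := by
  have hp3 : (0 : ℝ) < (p : ℝ) + 3 := by positivity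
  have hk2 : √((p : ℝ) + 3) ^ 2 = (p : ℝ) + 3 := Real.sq_sqrt hp3.le
  have hρ0 : 0 ≤ ρ := le_trans (by
    have : 0 < 1 - u ^ 2 := by nlinarith
    positivity) hρ
  have low : ∀ v ∈ Icc (0 : ℝ) u,
      expLow toReal (((p : ℝ) + 3) * ρ / 2 * v ^ 2) ≤ arc v ^ (p + 1) := fun v hv =>
    (expLow_le (by positivity)).trans
      ((le_of_eq (by ring_nf)).trans (pow_arc_ge hv.1 hv.2 hu1 hρ))
  have e : √((p : ℝ) + 3) * u * (√((p : ℝ) + 3) * u) * ρ = ((p : ℝ) + 3) * ρ * u ^ 2 := by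
    linear_combination ρ * u ^ 2 * hk2
  rw [e]
  refine ⟨le_of_eq_of_le (by ring_nf) (low u ⟨hu, le_rfl⟩), ?_⟩
  rw [mul_assoc (√((p : ℝ) + 3)) u]
  refine mul_le_mul_of_nonneg_left ?_ (Real.sqrt_nonneg _)
  set c := ((p : ℝ) + 3) * ρ with hc
  have hq : Continuous fun v : ℝ => expLow toReal (c / 2 * v ^ 2) := by
    simp only [expLow]; fun_prop
  have h := intervalIntegral.integral_mono_on (μ := volume) hu (hq.intervalIntegrable _ _)
    ((continuous_arc.pow (p + 1)).intervalIntegrable _ _) low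
  refine le_of_eq_of_le ?_ h
  rw [intervalIntegral.integral_eq_sub_of_hasDerivAt
    (f := fun v => v - c / 6 * v ^ 3 + c ^ 2 / 40 * v ^ 5 - c ^ 3 / 336 * v ^ 7 +
      c ^ 4 / 3456 * v ^ 9 - c ^ 5 / 42240 * v ^ 11)
    (fun v _ => ((((((hasDerivAt_id' v).sub ((hasDerivAt_pow 3 v).const_mul (c / 6))).add
      ((hasDerivAt_pow 5 v).const_mul (c ^ 2 / 40))).sub
      ((hasDerivAt_pow 7 v).const_mul (c ^ 3 / 336))).add
      ((hasDerivAt_pow 9 v).const_mul (c ^ 4 / 3456))).sub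
      ((hasDerivAt_pow 11 v).const_mul (c ^ 5 / 42240))).congr_deriv
        (by simp only [expLow, toReal]; push_cast; ring))
    (hq.intervalIntegrable _ _)]
  simp only [intLow, toReal]
  push_cast
  ring

/-- The rational lower bound of the mass above, from its two inequalities. -/
theorem circHigh_ge_mills (d : Data) (hN : ∀ X : ℝ, 0 ≤ X → X * X ≤ (d.m1 : ℝ) + 2 →
      0 ≤ claimMills toReal d X ∧ 0 ≤ claimSlope toReal d X ∧ 0 < millsD toReal d X)
    (hp : (p : ℝ) + 1 ≤ d.m1) {s : ℝ} (hs : s ∈ Icc (0 : ℝ) 1) :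
    arc s ^ (p + 3) * (millsN toReal d (√((p : ℝ) + 3) * s) /
        (√((p : ℝ) + 3) * millsD toReal d (√((p : ℝ) + 3) * s))) ≤ circHigh p s := by
  set k := √((p : ℝ) + 3) with hk
  have hk0 : 0 < k := Real.sqrt_pos.2 (by positivity)
  have hk2 : k ^ 2 = (p : ℝ) + 3 := Real.sq_sqrt (by positivity)
  have hmem : ∀ u ∈ Icc (0 : ℝ) 1, 0 ≤ k * u ∧ k * u * (k * u) ≤ (d.m1 : ℝ) + 2 := fun u hu => by
    refine ⟨mul_nonneg hk0.le hu.1, ?_⟩
    nlinarith [pow_le_one₀ hu.1 hu.2 (n := 2)]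
  have hc : Continuous fun u => arc u ^ (p + 1) := continuous_arc.pow _
  have hD : ∀ u ∈ Icc (0 : ℝ) 1, 0 < millsD toReal d (k * u) := fun u hu =>
    (hN _ (hmem u hu).1 (hmem u hu).2).2.2
  have hF : ContinuousOn
      (fun u => -(arc u ^ (p + 3) * (millsN toReal d (k * u) / (k * millsD toReal d (k * u)))))
      (Icc s 1) := by
    refine ((continuous_arc.pow _).continuousOn.mul (ContinuousOn.div ?_ ?_ fun u hu =>
      (mul_pos hk0 (hD u ⟨hs.1.trans hu.1, hu.2⟩)).ne')).neg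
    · simp only [millsN]; fun_prop
    · simp only [millsD]; fun_prop
  have h := sub_le_integral_of_hasDeriv_right_of_le
    (g' := fun u => arc u ^ (p + 1) * ((k * u) * (millsN toReal d (k * u) / millsD toReal d (k * u)) -
      (1 - u ^ 2) * (((2 * (k * u) + d.ma) * millsD toReal d (k * u) -
        millsN toReal d (k * u) * (3 * (k * u * (k * u)) + 2 * d.ma * (k * u) + d.mc)) /
          millsD toReal d (k * u) ^ 2)))
    (φ := fun u => arc u ^ (p + 1)) hs.2 hF (fun u hu => ?_) (hc.integrableOn_Icc) fun u hu => ?_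
  · simp only [Lift.circHigh, neg_sub_neg] at h ⊢
    simpa [arc] using h
  · have hu0 : 0 < 1 - u ^ 2 := by nlinarith [hu.1, hu.2, hs.1]
    have h2 : arc u ^ 2 = 1 - u ^ 2 := Real.sq_sqrt hu0.le
    have hDu := hD u ⟨hs.1.trans hu.1.le, hu.2.le⟩
    have hd : HasDerivAt (fun y => millsN toReal d (k * y) / (k * millsD toReal d (k * y)))
        (((2 * (k * u) + d.ma) * millsD toReal d (k * u) -
          millsN toReal d (k * u) * (3 * (k * u * (k * u)) + 2 * d.ma * (k * u) + d.mc)) /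
            millsD toReal d (k * u) ^ 2) u := by
      have hl := (hasDerivAt_id' u).const_mul k
      have hn : HasDerivAt (fun y => millsN toReal d (k * y)) (k * (2 * (k * u) + d.ma)) u := by
        simp only [millsN, toReal]
        refine (((hl.mul hl).add (hl.const_mul (d.ma : ℝ))).add_const (d.mb : ℝ)).congr_deriv ?_
        ring
      have hdd : HasDerivAt (fun y => millsD toReal d (k * y))
          (k * (3 * (k * u * (k * u)) + 2 * d.ma * (k * u) + d.mc)) u := by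
        simp only [millsD, toReal]
        refine (((((hl.add_const (d.ma : ℝ)).mul hl).add_const (d.mc : ℝ)).mul hl).add_const
          (d.md : ℝ)).congr_deriv ?_
        simp only [Pi.mul_apply]
        ring
      refine (hn.div (hdd.const_mul k) (mul_pos hk0 hDu).ne').congr_deriv ?_
      field_simp
    refine (((hasDerivAt_arc_pow (p + 2) (s := u) ⟨by linarith [hu.1, hs.1], hu.2⟩).mul hd
      ).neg.congr_deriv ?_).hasDerivWithinAt
    rw [show arc u ^ (p + 2 + 1) = arc u ^ (p + 1) * (1 - u ^ 2) by rw [← h2]; ring]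
    push_cast
    have e : (k * u) * (millsN toReal d (k * u) / millsD toReal d (k * u)) =
        ((p : ℝ) + 3) * u * (millsN toReal d (k * u) / (k * millsD toReal d (k * u))) := by
      rw [← hk2]; field_simp
    rw [e]
    field_simp
    ring
  · refine mul_le_of_le_one_right (pow_nonneg (Real.sqrt_nonneg _) _) ?_
    obtain ⟨hX0, hX1⟩ := hmem u ⟨hs.1.trans hu.1.le, hu.2.le⟩
    obtain ⟨q1, q2, q3⟩ := hN _ hX0 hX1
    have eC : ((1 / ((d.m1 : ℚ) + 2) : ℚ) : ℝ) * (k * u * (k * u)) ≤ u ^ 2 := by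
      push_cast
      rw [one_div_mul_eq_div, div_le_iff₀ (by positivity), show k * u * (k * u) = u ^ 2 * k ^ 2 by ring,
        hk2]
      exact mul_le_mul_of_nonneg_left (by linarith) (sq_nonneg _)
    simp only [claimMills, claimSlope, toReal] at q1 q2
    push_cast at q1 q2 eC
    generalize hX : k * u = X at *
    generalize millsN toReal d X = N at *
    generalize millsD toReal d X = D at *
    have q := mul_le_mul_of_nonneg_right eC q2
    rw [mul_div_assoc', mul_div_assoc', div_sub_div _ _ q3.ne' (pow_pos q3 2).ne',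
      div_le_one (by positivity)]
    have := mul_nonneg q3.le (show 0 ≤ D * D - X * (N * D) +
      (1 - u ^ 2) * ((2 * X + d.ma) * D - N * (3 * (X * X) + 2 * d.ma * X + d.mc)) by linarith)
    linear_combination this

/-- The bound of `1 / r` from a base, through the rational factor. -/
theorem inv_rate_le_mills (d : Data) (hN : ∀ X : ℝ, 0 ≤ X → X * X ≤ (d.m1 : ℝ) + 2 →
      0 ≤ claimMills toReal d X ∧ 0 ≤ claimSlope toReal d X ∧ 0 < millsD toReal d X)
    (hnum : ∀ X : ℝ, 0 ≤ X → 0 < millsN toReal d X)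
    (hp : (p : ℝ) + 1 ≤ d.m1) {ell s t a r q E H ρ U W : ℝ} (h : FlatState p ell s t a r q)
    (h0 : 0 ≤ ell) (hE : Real.exp ell ≤ E) (hH : half (p + 1) * √((p : ℝ) + 3) ≤ H)
    (hU : 0 ≤ U) (hUs : U ≤ √((p : ℝ) + 3) * s)
    (hρ : ((p : ℝ) + 1) / ((p : ℝ) + 3) * (1 + U * U / (2 * (((p : ℝ) + 3) - U * U))) ≤ ρ)
    (hcu : 0 < expLow toReal (1 / 2 * (U * U * ρ))) (hWE : E ≤ W)
    (hW : (E * H - U * intLow toReal (U * U * ρ)) * millsD toReal d (√((p : ℝ) + 3) * s) ≤
      W * millsN toReal d (√((p : ℝ) + 3) * s) * expLow toReal (1 / 2 * (U * U * ρ))) :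
    (1 - s ^ 2) / r ≤ W := by
  set k := √((p : ℝ) + 3) with hk
  have hk0 : 0 < k := Real.sqrt_pos.2 (by positivity)
  have hk2 : k ^ 2 = (p : ℝ) + 3 := Real.sq_sqrt (by positivity)
  have hs := h.state.s_mem
  have hr := h.state.rate_pos
  have hc := h.state.arc_pos'
  have h2 : arc s ^ 2 = 1 - s ^ 2 := Real.sq_sqrt (by nlinarith [hs.1, hs.2])
  set u := U / k with hu
  have hku : k * u = U := by rw [hu]; field_simp
  have hu0 : 0 ≤ u := div_nonneg hU hk0.le
  have hus : u ≤ s := by rw [hu, div_le_iff₀ hk0]; linarith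
  have hρ' : ((p : ℝ) + 1) / ((p : ℝ) + 3) * (1 + u ^ 2 / (2 * (1 - u ^ 2))) ≤ ρ := by
    refine le_of_eq_of_le ?_ hρ
    have hu2 : 1 - u ^ 2 ≠ 0 := by nlinarith [hus.trans_lt hs.2]
    rw [← hk2, show U * U = k ^ 2 * u ^ 2 by rw [← hku]; ring,
      show k ^ 2 - k ^ 2 * u ^ 2 = k ^ 2 * (1 - u ^ 2) by ring]
    field_simp
  obtain ⟨hcu', hPu⟩ := base_bounds (p := p) hu0 (hus.trans_lt hs.2) hρ'
  rw [← hk, hku] at hcu' hPu
  have hb := h.inv_rate_le_base_max (u := u) ⟨hu0, hus⟩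
  have hcu0 : 0 < arc u ^ (p + 1) := pow_pos (arc_pos ⟨by linarith, hus.trans_lt hs.2⟩) _
  have hex := Real.exp_pos ell
  have hz1 : 1 - s ^ 2 ≤ 1 := by nlinarith
  have hz0 : 0 ≤ 1 - s ^ 2 := h2 ▸ sq_nonneg _
  have hE0 : 0 ≤ E := hex.le.trans hE
  rw [div_eq_mul_one_div]
  refine (mul_le_mul_of_nonneg_left hb hz0).trans ?_
  rw [mul_max_of_nonneg _ _ hz0]
  refine max_le ((mul_le_of_le_one_left hex.le hz1).trans (hE.trans hWE)) ?_
  have hHs := circHigh_pos p ⟨hs.1.le, hs.2⟩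
  have hsum : circLow p u + Lift.circHigh p u = half (p + 1) :=
    intervalIntegral.integral_add_adjacent_intervals ((continuous_arc.pow _).intervalIntegrable _ _)
      ((continuous_arc.pow _).intervalIntegrable _ _)
  set X := Real.exp ell * (Lift.circHigh p u + (1 - Real.exp (-ell)) * circLow p u) with hX
  set K := (E * H - U * intLow toReal (U * U * ρ)) / expLow toReal (1 / 2 * (U * U * ρ)) with hKd
  have hX0 : 0 ≤ X := by
    have hlow0 : 0 ≤ circLow p u :=
      intervalIntegral.integral_nonneg hu0 fun v _ => pow_nonneg (Real.sqrt_nonneg _) _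
    have h1 : 0 ≤ Lift.circHigh p u := (circHigh_pos p ⟨hu0, hus.trans_lt hs.2⟩).le
    rw [hX]
    exact mul_nonneg hex.le (add_nonneg h1 (mul_nonneg
      (sub_nonneg.2 (Real.exp_le_one_iff.2 (neg_nonpos.2 h0))) hlow0))
  have hXe : k * X ≤ E * H - U * intLow toReal (U * U * ρ) := by
    have e : X = Real.exp ell * half (p + 1) - circLow p u := by
      rw [hX, ← hsum, Real.exp_neg]
      field_simp
      ring
    rw [e, mul_sub, mul_left_comm]
    refine sub_le_sub (mul_le_mul hE ?_ (mul_nonneg hk0.le (Ident.half_pos _).le) hE0) hPu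
    linarith
  have hK0 : 0 ≤ K := div_nonneg ((mul_nonneg hk0.le hX0).trans hXe) hcu.le
  have hn : k * X ≤ K * arc u ^ (p + 1) := by
    refine hXe.trans (le_trans (le_of_eq ?_) (mul_le_mul_of_nonneg_left hcu' hK0))
    rw [hKd, div_mul_cancel₀ _ hcu.ne']
  have hkX : 0 ≤ k * s := mul_nonneg hk0.le hs.1.le
  have hNum := hnum (k * s) hkX
  have hDen : 0 < millsD toReal d (k * s) := by
    refine (hN _ hkX ?_).2.2
    nlinarith [pow_le_one₀ hs.1.le hs.2.le (n := 2)]
  have hm := circHigh_ge_mills d hN hp (Ioo_subset_Icc_self hs)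
  rw [← hk] at hm
  have hm' : (1 - s ^ 2) * arc s ^ (p + 1) * millsN toReal d (k * s) ≤
      millsD toReal d (k * s) * (k * Lift.circHigh p s) := by
    rw [← h2]
    have := mul_le_mul_of_nonneg_left hm (mul_nonneg hDen.le hk0.le)
    refine le_trans (le_of_eq ?_) (this.trans (le_of_eq (by ring)))
    field_simp
    ring
  have hWK : K * millsD toReal d (k * s) ≤ W * millsN toReal d (k * s) := by
    rw [hKd, div_mul_eq_mul_div, div_le_iff₀ hcu]
    exact hW
  rw [mul_div_assoc', div_le_iff₀ (mul_pos hcu0 hHs)]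
  refine le_of_mul_le_mul_left ?_ hNum
  have e1 := mul_le_mul_of_nonneg_left hm' hX0
  have e2 := mul_le_mul_of_nonneg_right hn (mul_nonneg hDen.le hHs.le)
  have e3 := mul_le_mul_of_nonneg_right hWK (mul_nonneg hcu0.le hHs.le)
  rw [hX] at e1 e2
  linarith

/-- The lower box. -/
theorem box_sharp {ell s t a r q B : ℝ} (h : FlatState p ell s t a r q) (h0 : 0 ≤ ell)
    (hB : Real.exp ell - 1 ≤ B) :
    s - t ≤ B * ((1 - s ^ 2) * ((((p : ℝ) + 4) * s ^ 2 + 2) /
      (((p : ℝ) + 3) * s * (((p : ℝ) + 3) * s ^ 2 + 3)))) := by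
  have hs := h.state.s_mem
  have hc := pow_pos h.state.arc_pos' (p + 1)
  have hs2 : arc s ^ 2 = 1 - s ^ 2 := Real.sq_sqrt (by nlinarith [hs.1, hs.2])
  have hT := circHigh_le (p := p) (s := s) ⟨hs.1, hs.2.le⟩
  have hB0 : 0 ≤ B := le_trans (sub_nonneg.2 (Real.one_le_exp h0)) hB
  refine le_of_mul_le_mul_right (((h.disp_ge h0).trans
    (mul_le_mul hB hT (circHigh_pos p ⟨hs.1.le, hs.2⟩).le hB0)).trans (le_of_eq ?_)) hc
  rw [← hs2]
  ring

/-- The chord beyond `exp ell`. -/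
theorem gain_high {ell s t a r q : ℝ} (h : FlatState p ell s t a r q)
    (hv : Real.exp ell < 1 / r) :
    (1 / r - Real.exp ell) * ((1 - s ^ 2) / (((p : ℝ) + 3) * s ^ 2 + 1)) ≤ (t - s) / s := by
  have hs := h.state.s_mem
  have hr := h.state.rate_pos
  have hc := h.state.arc_pos'
  have hcm := pow_pos hc (p + 1)
  have hs2 : arc s ^ 2 = 1 - s ^ 2 := Real.sq_sqrt (by nlinarith [hs.1, hs.2])
  have hEr : Real.exp ell * r < 1 := by rwa [lt_div_iff₀ hr] at hv
  have ha : a ^ (p + 1) = r * arc s ^ (p + 1) := by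
    rw [h.state.rate_eq, div_mul_cancel₀ _ hcm.ne']
  have hts : s < t := by
    by_contra hle
    have h1 : arc s ≤ arc t := Real.sqrt_le_sqrt (by nlinarith [not_lt.1 hle, h.state.t_mem.1])
    have h2 := (pow_le_pow_left₀ hc.le h1 (p + 1)).trans h.cut
    rw [ha] at h2
    nlinarith
  have h3 := h.tailChord s ⟨hs.1.le, hts⟩
  rw [ha] at h3
  have hlog : Real.log (arc s ^ (p + 1)) - ell - Real.log (r * arc s ^ (p + 1)) =
      Real.log (1 / r) - ell := by
    rw [Real.log_mul hr.ne' hcm.ne', one_div, Real.log_inv]; ring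
  rw [hlog] at h3
  have hv0 : 0 < 1 / r := one_div_pos.2 hr
  have hL := Real.one_sub_inv_le_log_of_pos (div_pos hv0 (Real.exp_pos ell))
  rw [Real.log_div hv0.ne' (Real.exp_pos ell).ne', Real.log_exp] at hL
  have hT := circHigh_ge_sq (p := p) (Ioo_subset_Icc_self hs)
  have hd : 0 ≤ 1 - (1 / r / Real.exp ell)⁻¹ := by
    rw [sub_nonneg]
    refine inv_le_one_of_one_le₀ ?_
    rw [one_le_div (Real.exp_pos _)]
    exact hv.le
  have h4 := (mul_le_mul hL hT (mul_nonneg (pow_nonneg hc.le _) (div_nonneg hs.1.le (by positivity)))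
    (hd.trans hL)).trans h3
  have e : (1 - (1 / r / Real.exp ell)⁻¹) *
      (arc s ^ (p + 3) * (s / (((p : ℝ) + 3) * s ^ 2 + 1))) =
      (1 / r - Real.exp ell) * ((1 - s ^ 2) / (((p : ℝ) + 3) * s ^ 2 + 1)) * s *
        (r * arc s ^ (p + 1)) := by
    rw [← hs2]
    field_simp
    ring
  rw [e] at h4
  rw [le_div_iff₀ hs.1]
  exact le_of_mul_le_mul_right h4 (mul_pos hr hcm)

/-- A line below the logarithm on an interval. -/
theorem log_chord {a b la lb v : ℝ} (ha : 0 < a) (hab : a < b) (hla : la ≤ Real.log a)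
    (hlb : lb ≤ Real.log b) (hv : v ∈ Icc a b) :
    la + (lb - la) / (b - a) * (v - a) ≤ Real.log v := by
  have hd : 0 < b - a := by linarith
  set θ := (v - a) / (b - a) with hθ
  have h0 : 0 ≤ θ := div_nonneg (by linarith [hv.1]) hd.le
  have h1 : θ ≤ 1 := (div_le_one hd).2 (by linarith [hv.2])
  have h := strictConcaveOn_log_Ioi.concaveOn.2 (mem_Ioi.2 ha) (mem_Ioi.2 (ha.trans hab))
    (sub_nonneg.2 h1) h0 (by ring)
  simp only [smul_eq_mul] at h
  have ev : (1 - θ) * a + θ * b = v := by rw [hθ]; field_simp; ring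
  rw [ev] at h
  refine le_trans (le_of_eq ?_) ((add_le_add (mul_le_mul_of_nonneg_left hla (sub_nonneg.2 h1))
    (mul_le_mul_of_nonneg_left hlb h0)).trans h)
  rw [hθ]
  field_simp
  ring

/-- The shadow above a line in `v`. -/
theorem shadow_ge_line {ell s t a r q gam m0 : ℝ} (h : FlatState p ell s t a r q) (hgam : 0 ≤ gam)
    (hl : m0 ≤ ((p : ℝ) + 1) * ((1 / r) ^ (1 / ((p : ℝ) + 1)) - 1)) :
    gam * Ident.b0 p / ((p : ℝ) + 1) / arc s * m0 ≤
      gam * Ident.b0 p * (1 / a - 1 / arc s) := by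
  have hc := h.state.arc_pos'
  have ha := h.state.pos
  have hr := h.state.rate_pos
  have hb := Ident.b0_pos p
  have hm : (0 : ℝ) < (p : ℝ) + 1 := by positivity
  have e : (1 / r) ^ (1 / ((p : ℝ) + 1)) = arc s / a := by
    rw [h.state.rate_eq, one_div_div, ← div_pow, ← Real.rpow_natCast (arc s / a),
      ← Real.rpow_mul (div_pos hc ha).le]
    push_cast
    rw [mul_one_div_cancel hm.ne', Real.rpow_one]
  rw [e] at hl
  refine (mul_le_mul_of_nonneg_left hl (by positivity)).trans (le_of_eq ?_)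
  field_simp

end Vale.Agent.P237.Petty.Cor.Band20
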