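import Vale.Agent.P237.Petty.Cor.Band20.Tail

/-!
# P237: from the constants to a cell, dimensions from 20 to 99

The whole remainder is the polynomial of the pieces plus a power of `s ^ 2` for what is beyond; the
means are rational multiples of `half (p + 1)`, compared order by order.
-/

namespace Vale.Agent.P237.Petty.Cor.Band20

open MeasureTheory Set intervalIntegral
open Ident (half)
open Huge (moment)

variable {p : ℕ} {d : Data}

/-- A moment of a power of the half circle, over that power's integral. -/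
def momQ (k : ℕ) : ℕ → ℚ
  | 0 => 1
  | j + 1 => momQ k j * (2 * j + 1) / (k + 2 * j + 3)

theorem moment_eq_momQ (k : ℕ) : ∀ j, moment k j = (momQ k j : ℝ) * half k
  | 0 => by simp [momQ, Huge.moment_zero]
  | j + 1 => by
    have h := Huge.moment_step k j
    rw [moment_eq_momQ k j] at h
    simp only [momQ]
    push_cast
    rw [div_mul_eq_mul_div, eq_div_iff (by positivity)]
    linarith

/-- The mean of a sum of terms, over `half (p + 1)`. -/
def meanQ (p : ℕ) : List Mono → ℚ
  | [] => 0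
  | T :: L => T.c * ((p : ℚ) + 1) ^ T.i / ((p : ℚ) + 1) ^ T.j * momQ (p + 1) T.i + meanQ p L

/-- The same for the part beyond the pieces, times `(p + 1) ^ 2`. -/
def meanTail (d : Data) (p : ℕ) : ℚ :=
  |tailFactor d| * ((p : ℚ) + 1) ^ 3 * (1 / d.z2) ^ d.jt * momQ (p - 3) d.jt *
    ((p / (p - 1)) * ((p + 2) / (p + 1)))

/-- Below the stationary constant at an order. -/
def muQ (p : ℕ) : ℚ :=
  3 / 4 - 72 / 25 * (1 / ((p : ℚ) + 1)) + 32 / 5 * (1 / ((p : ℚ) + 1) * (1 / ((p : ℚ) + 1)))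

/-- The two mean conditions at an order. -/
def okMeanAt (d : Data) (p : ℕ) : Bool :=
  decide (meanQ p d.mass ≤ muQ p / ((p : ℚ) + 2)) &&
    decide (meanQ p d.terms + meanTail d p ≤
      d.lo * muQ p * (((p : ℚ) + 1) / ((p : ℚ) + 2)) ^ 2)

/-- The mean conditions at every order. -/
def okMean (d : Data) : Bool :=
  (List.range (d.m1 + 1 - d.m0)).all fun i => okMeanAt d (d.m0 - 1 + i)

/-- The function against the value. -/
noncomputable def massF (p : ℕ) (d : Data) (s : ℝ) : ℝ :=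
  polyAt toReal (yv p s) (ev p) d.mass

/-- The part beyond the pieces. -/
noncomputable def tailF (p : ℕ) (d : Data) (s : ℝ) : ℝ :=
  |(tailFactor d : ℝ)| * ((p : ℝ) + 1) * (1 / (d.z2 : ℝ)) ^ d.jt *
    (s ^ (2 * d.jt) / (1 - s ^ 2) ^ 2)

/-- The remainder. -/
noncomputable def restR (p : ℕ) (d : Data) (s : ℝ) : ℝ :=
  ev p ^ 2 * polyAt toReal (yv p s) (ev p) d.terms + tailF p d s -
    (d.lo : ℝ) / ((p : ℝ) + 2) * massF p d s

theorem continuous_polyAt (p : ℕ) (e : ℝ) : ∀ L : List Mono,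
    Continuous fun s : ℝ => polyAt toReal (yv p s) e L
  | [] => by simp only [polyAt]; fun_prop
  | T :: L => by
    have := continuous_polyAt p e L
    simp only [polyAt, yv] at this ⊢
    fun_prop

theorem integral_polyAt (p : ℕ) : ∀ L : List Mono,
    ∫ s in (0 : ℝ)..1, arc s ^ (p + 1) * polyAt toReal (yv p s) (ev p) L =
      (meanQ p L : ℝ) * half (p + 1)
  | [] => by simp [polyAt, meanQ, toReal]
  | T :: L => by
    have h1 : IntervalIntegrable
        (fun s => (T.c : ℝ) * ((p : ℝ) + 1) ^ T.i / ((p : ℝ) + 1) ^ T.j *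
          (arc s ^ (p + 1) * s ^ (2 * T.i))) volume 0 1 :=
      (Huge.integrable_moment _ _ _ _).const_mul _
    have h2 : IntervalIntegrable
        (fun s => arc s ^ (p + 1) * polyAt toReal (yv p s) (ev p) L) volume 0 1 :=
      ((continuous_arc.pow _).mul (continuous_polyAt p _ L)).intervalIntegrable _ _
    rw [intervalIntegral.integral_congr (g := fun s => (T.c : ℝ) * ((p : ℝ) + 1) ^ T.i /
        ((p : ℝ) + 1) ^ T.j * (arc s ^ (p + 1) * s ^ (2 * T.i)) +
        arc s ^ (p + 1) * polyAt toReal (yv p s) (ev p) L) fun s _ => ?_,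
      intervalIntegral.integral_add h1 h2, intervalIntegral.integral_const_mul, integral_polyAt p L,
      show (∫ s in (0 : ℝ)..1, arc s ^ (p + 1) * s ^ (2 * T.i)) = moment (p + 1) T.i from rfl,
      moment_eq_momQ, meanQ]
    · push_cast
      ring
    · simp only [polyAt, toReal, yv, ev]
      rw [mul_pow, ← pow_mul s, one_div_pow]
      ring

theorem tailF_arc (hp : 4 ≤ p) {s : ℝ} (hs : s ∈ Icc (0 : ℝ) 1) :
    arc s ^ (p + 1) * tailF p d s =
      |(tailFactor d : ℝ)| * ((p : ℝ) + 1) * (1 / (d.z2 : ℝ)) ^ d.jt *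
        (arc s ^ (p - 3) * s ^ (2 * d.jt)) := by
  have hc2 : arc s ^ 2 = 1 - s ^ 2 := Real.sq_sqrt (by nlinarith [hs.1, hs.2])
  have h : arc s ^ (p + 1) * (s ^ (2 * d.jt) / (1 - s ^ 2) ^ 2) =
      arc s ^ (p - 3) * s ^ (2 * d.jt) := by
    rcases eq_or_lt_of_le hs.2 with h1 | h1
    · subst h1
      simp [arc, zero_pow (show p - 3 ≠ 0 by omega)]
    · have : (1 - s ^ 2) ≠ 0 := by nlinarith [hs.1]
      rw [show p + 1 = (p - 3) + 4 by omega, pow_add, show arc s ^ 4 = (arc s ^ 2) ^ 2 by ring, hc2]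
      field_simp
  rw [tailF, ← h]
  ring

theorem restR_arc (hp : 4 ≤ p) {s : ℝ} (hs : s ∈ Icc (0 : ℝ) 1) :
    arc s ^ (p + 1) * restR p d s =
      ev p ^ 2 * (arc s ^ (p + 1) * polyAt toReal (yv p s) (ev p) d.terms) +
        |(tailFactor d : ℝ)| * ((p : ℝ) + 1) * (1 / (d.z2 : ℝ)) ^ d.jt *
          (arc s ^ (p - 3) * s ^ (2 * d.jt)) -
        (d.lo : ℝ) / ((p : ℝ) + 2) * (arc s ^ (p + 1) * massF p d s) := by
  rw [restR, ← tailF_arc hp hs]
  ring

/-- Every state is covered. -/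
theorem rest_pointwise (hd : Good d) (hp : InRange d p) {ell s t a r q : ℝ}
    (h : FlatState p ell s t a r q)
    (hl : ell ∈ Icc ((d.lo : ℝ) / ((p : ℝ) + 2)) (min ((d.hi : ℝ) / ((p : ℝ) + 2)) 1)) :
    ell * (wS p (arc s) - massF p d s) - restR p d s ≤
      cancelExpr p (gamM p d) (nuM p d) ell (fun s t => s + (d.g : ℝ) * (s - t))
        (fun _ _ => 1 + (d.g : ℝ)) (fun _ _ => -(d.g : ℝ)) (quadPot (potK p d) (potB d))
        (quadPotS (potK p d) (potK' p d) (potB d) (potB' d))
        (quadPotT (potK p d) (potB d)) s t a r := by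
  have F := hd.facts hp
  have hs := h.state.s_mem
  have hc : 0 < 1 - s ^ 2 := by nlinarith [hs.1, hs.2]
  have hz0 := F.z2_pos
  have hW0 : 0 ≤ tailF p d s := by
    have := hs.1
    rw [tailF]
    positivity
  rw [restR, massF]
  rcases le_total (s ^ 2) (d.z2 : ℝ) with h1 | h1
  · have := bulk_ge hd hp h hl h1
    rw [cancelExpr_core h]
    linarith
  · have h0 : 0 ≤ ell := le_trans (div_nonneg F.lo_pos.le (by positivity)) hl.1
    have hE : Real.exp ell ≤ (d.umax : ℝ) := by
      obtain ⟨T, hT⟩ := hd.exp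
      obtain ⟨T', hT'⟩ := hd.umax
      have hc := P100.Bernstein.nonneg_of_certify hT (inBox1 F.e_mem)
      have hu := P100.Bernstein.nonneg_of_certify hT' (inBox1 F.e_mem)
      simp only [claimExp, expTop, P100.Bernstein.Expr.eval_sub, P100.Bernstein.Expr.eval_mul,
        P100.Bernstein.Expr.eval_add, P100.Bernstein.Expr.eval_pow, eval_ofRat,
        P100.Bernstein.Expr.eval_var, List.getD_cons_zero, toReal] at hc hu
      push_cast at hc hu
      have hp2 : (0 : ℝ) < (p : ℝ) + 2 := by positivity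
      have en : (d.hi : ℝ) / ((p : ℝ) + 2) = d.hi * ev p / (1 + ev p) := by
        rw [ev]; field_simp; ring
      have he0 := F.e_pos
      refine (exp_le_top h0 (hl.2.trans (min_le_left _ _)) (hl.2.trans (min_le_right _ _))
        (div_pos (F.lo_pos.trans_le F.lo_le) hp2) ?_).1
      rw [en]
      refine le_trans ?_ (le_of_sub_nonneg hu)
      have h1e : (0 : ℝ) < (1 + ev p) ^ 5 := by positivity
      refine le_of_mul_le_mul_right (le_trans (le_of_eq ?_) (le_of_sub_nonneg hc)) h1e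
      field_simp
    have ht := tail_ge hd hp h h0 hE h1
    have hc2 : arc s ^ 2 = 1 - s ^ 2 := Real.sq_sqrt hc.le
    have hM : (tailFactor d : ℝ) * (((p : ℝ) + 1) / arc s ^ 4) ≤ tailF p d s := by
      rw [tailF, show arc s ^ 4 = (1 - s ^ 2) ^ 2 by rw [← hc2]; ring,
        show |(tailFactor d : ℝ)| * ((p : ℝ) + 1) * (1 / (d.z2 : ℝ)) ^ d.jt *
          (s ^ (2 * d.jt) / (1 - s ^ 2) ^ 2) = |(tailFactor d : ℝ)| *
            (((p : ℝ) + 1) / (1 - s ^ 2) ^ 2) * (1 / (d.z2 : ℝ) * s ^ 2) ^ d.jt by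
          rw [mul_pow, ← pow_mul]; ring]
      refine (mul_le_mul_of_nonneg_right (le_abs_self _) (by positivity)).trans
        (le_mul_of_one_le_right (by positivity) (one_le_pow₀ ?_))
      rw [one_div, ← div_eq_inv_mul, one_le_div hz0]
      exact h1
    obtain ⟨hT0, hM0⟩ := hd.poly_nonneg (z := s ^ 2) ⟨sq_nonneg s, by linarith⟩ F.e_mem F.e_pos
    rw [show s ^ 2 / ev p = yv p s by rw [yv, ev]; field_simp] at hT0 hM0
    have := mul_nonneg (sub_nonneg.2 hl.1) hM0
    have := mul_nonneg (sq_nonneg (ev p)) hT0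
    linarith

/-- A cell from its constants. -/
theorem corCell_top (hd : Good d) (hmean : okMean d = true) {p : ℕ} (hlo : d.m0 ≤ p + 1)
    (hhi : p + 1 ≤ d.m1) :
    CorCell p ((d.lo : ℝ) / ((p : ℝ) + 2)) (min ((d.hi : ℝ) / ((p : ℝ) + 2)) 1) := by
  have hp : InRange d p := ⟨hlo, hhi⟩
  have F := hd.facts hp
  have h18 := F.p_ge
  have hH := (Ident.half_pos (p + 1)).le
  have hb := Ident.b0_pos p
  have hgam : 0 < gamM p d := by
    have := F.gg_pos
    unfold gamM
    positivity
  have hmean' : okMeanAt d p = true := by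
    simp only [okMean, List.all_eq_true, List.mem_range] at hmean
    have h := hmean (p - (d.m0 - 1)) (by omega)
    rwa [show d.m0 - 1 + (p - (d.m0 - 1)) = p by omega] at h
  simp only [okMeanAt, Bool.and_eq_true, decide_eq_true_eq] at hmean'
  obtain ⟨hqM, hqT⟩ := hmean'
  have hmu := (muMin_bounds h18 F.p_le).1
  have hrM := (Rat.cast_le (K := ℝ)).2 hqM
  have hrT := (Rat.cast_le (K := ℝ)).2 hqT
  simp only [muQ, meanTail] at hrM hrT
  push_cast at hrM hrT
  have hm0 : (0 : ℝ) < (p : ℝ) + 1 := by positivity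
  have hcM : Continuous fun s => arc s ^ (p + 1) * massF p d s :=
    (continuous_arc.pow _).mul (continuous_polyAt p _ _)
  have hcR : ContinuousOn (fun s => arc s ^ (p + 1) * restR p d s) (Icc 0 1) :=
    (((continuous_const.mul ((continuous_arc.pow _).mul (continuous_polyAt p _ _))).add
      (continuous_const.mul ((continuous_arc.pow _).mul (continuous_pow _)))).sub
        (continuous_const.mul hcM)).continuousOn.congr fun s hs => restR_arc (by omega) hs
  have hlo0 : 0 ≤ (d.lo : ℝ) / ((p : ℝ) + 2) := div_nonneg F.lo_pos.le (by positivity)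
  have hMint : ∫ s in (0 : ℝ)..1, arc s ^ (p + 1) * massF p d s ≤
      half (p + 1) * Ident.muMin p / ((p : ℝ) + 2) := by
    rw [show (fun s => arc s ^ (p + 1) * massF p d s) =
      fun s => arc s ^ (p + 1) * polyAt toReal (yv p s) (ev p) d.mass from rfl, integral_polyAt]
    refine (mul_le_mul_of_nonneg_right hrM hH).trans ?_
    rw [div_mul_eq_mul_div, mul_comm (half (p + 1))]
    exact div_le_div_of_nonneg_right (mul_le_mul_of_nonneg_right hmu hH) (by positivity)
  refine corCell_of_bridge (p := p) (by omega) hgam F.nu_nonneg (g := (d.g : ℝ))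
    (M := massF p d) (R := restR p d)
    (B := fun s => -(d.a : ℝ) * (arc s ^ (p + 1) * (1 - s ^ 2)))
    (k := potK p d) (k' := potK' p d) (β := potB d) (β' := potB' d)
    (fun s hs => hasDerivAt_potK hs) (fun s hs => (polePot_null p (d.a : ℝ) hs).1) ?_ ?_ ?_
    hcM.continuousOn hcR hMint ?_ fun ell hl s t a r q h => rest_pointwise hd hp h hl
  · have := continuous_arc
    have hn : Continuous fun s => nn toReal d (yv p s) (ev p) := by
      simp only [nn, toReal, yv]
      fun_prop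
    have e : (fun s => arc s ^ (p + 1) * potK p d s) = fun s =>
        -gg toReal d (ev p) * arc s ^ p +
          arc s ^ (p + 1) * (ev p * nn toReal d (yv p s) (ev p)) := by
      funext s
      rcases eq_or_ne (arc s) 0 with h | h
      · simp [potK, h, show p ≠ 0 by omega]
      · rw [potK, pow_succ]; field_simp
    rw [e]
    exact (by fun_prop : Continuous _).continuousOn
  · exact (continuous_const.mul ((continuous_arc.pow _).mul (by fun_prop))).continuousOn
  · intro s hs
    have := hs.1.ne'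
    rw [potB]
    field_simp
  · have i1 : IntervalIntegrable (fun s => ev p ^ 2 *
        (arc s ^ (p + 1) * polyAt toReal (yv p s) (ev p) d.terms)) volume 0 1 :=
      (((continuous_arc.pow _).mul (continuous_polyAt p _ _)).intervalIntegrable _ _).const_mul _
    have i2 := (Huge.integrable_moment (p - 3) d.jt 0 1).const_mul
      (|(tailFactor d : ℝ)| * ((p : ℝ) + 1) * (1 / (d.z2 : ℝ)) ^ d.jt)
    have i3 := ((hcM.intervalIntegrable (μ := volume) 0 1).const_mul
      ((d.lo : ℝ) / ((p : ℝ) + 2)))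
    rw [intervalIntegral.integral_congr (g := fun s =>
        ev p ^ 2 * (arc s ^ (p + 1) * polyAt toReal (yv p s) (ev p) d.terms) +
        |(tailFactor d : ℝ)| * ((p : ℝ) + 1) * (1 / (d.z2 : ℝ)) ^ d.jt *
          (arc s ^ (p - 3) * s ^ (2 * d.jt)) -
        (d.lo : ℝ) / ((p : ℝ) + 2) * (arc s ^ (p + 1) * massF p d s))
      (by rw [uIcc_of_le zero_le_one]; exact fun s hs => restR_arc (by omega) hs),
      intervalIntegral.integral_sub (i1.add i2) i3, intervalIntegral.integral_add i1 i2,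
      intervalIntegral.integral_const_mul, intervalIntegral.integral_const_mul,
      intervalIntegral.integral_const_mul, integral_polyAt,
      show (∫ s in (0 : ℝ)..1, arc s ^ (p - 3) * s ^ (2 * d.jt)) = moment (p - 3) d.jt from rfl,
      moment_eq_momQ, mul_sub]
    refine sub_le_sub_right ?_ _
    have hh : half (p - 3) ≤ (p : ℝ) / ((p : ℝ) - 1) * (((p : ℝ) + 2) / ((p : ℝ) + 1)) *
        half (p + 1) := by
      obtain ⟨k, rfl⟩ : ∃ k, p = k + 3 := ⟨p - 3, by omega⟩
      have a1 := half_le_shift k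
      have a2 := half_le_shift (k + 2)
      push_cast at a2 ⊢
      rw [show k + 3 + 1 = k + 2 + 2 by omega,
        show (k : ℝ) + 3 - 1 = k + 2 by ring, show (k : ℝ) + 3 + 2 = k + 2 + 3 by ring,
        show (k : ℝ) + 3 + 1 = k + 2 + 2 by ring, mul_assoc]
      exact a1.trans (mul_le_mul_of_nonneg_left a2 (by positivity))
    have hmq : 0 ≤ (momQ (p - 3) d.jt : ℝ) := by
      have h := Cor.moment_nonneg (p - 3) d.jt
      rw [moment_eq_momQ] at h
      exact nonneg_of_mul_nonneg_left h (Ident.half_pos _)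
    have hz := F.z2_pos
    have h1 := mul_le_mul_of_nonneg_left hh (show 0 ≤ |(tailFactor d : ℝ)| * ((p : ℝ) + 1) *
      (1 / (d.z2 : ℝ)) ^ d.jt * (momQ (p - 3) d.jt : ℝ) by positivity)
    have h2 := mul_le_mul_of_nonneg_right (mul_le_mul_of_nonneg_left hrT
      (sq_nonneg (ev p))) hH
    have h3 := mul_le_mul_of_nonneg_right (mul_le_mul_of_nonneg_left hmu F.lo_pos.le)
      (show 0 ≤ half (p + 1) / ((p : ℝ) + 2) ^ 2 by positivity)
    have e2 : ev p ^ 2 * ((d.lo : ℝ) * (3 / 4 - 72 / 25 * (1 / ((p : ℝ) + 1)) +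
        32 / 5 * (1 / ((p : ℝ) + 1) * (1 / ((p : ℝ) + 1)))) *
        (((p : ℝ) + 1) / ((p : ℝ) + 2)) ^ 2) * half (p + 1) =
        (d.lo : ℝ) * (3 / 4 - 72 / 25 * (1 / ((p : ℝ) + 1)) +
          32 / 5 * (1 / ((p : ℝ) + 1) * (1 / ((p : ℝ) + 1)))) *
          (half (p + 1) / ((p : ℝ) + 2) ^ 2) := by
      rw [ev]; field_simp
    rw [e2] at h2
    rw [show (d.lo : ℝ) / ((p : ℝ) + 2) * (half (p + 1) * Ident.muMin p / ((p : ℝ) + 2)) =
      (d.lo : ℝ) * Ident.muMin p * (half (p + 1) / ((p : ℝ) + 2) ^ 2) by field_simp]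
    have e1 : ev p ^ 2 * (|(tailFactor d : ℝ)| * ((p : ℝ) + 1) ^ 3 *
        (1 / (d.z2 : ℝ)) ^ d.jt * (momQ (p - 3) d.jt : ℝ) *
        ((p : ℝ) / ((p : ℝ) - 1) * (((p : ℝ) + 2) / ((p : ℝ) + 1)))) =
        |(tailFactor d : ℝ)| * ((p : ℝ) + 1) * (1 / (d.z2 : ℝ)) ^ d.jt *
          (momQ (p - 3) d.jt : ℝ) *
          ((p : ℝ) / ((p : ℝ) - 1) * (((p : ℝ) + 2) / ((p : ℝ) + 1))) := by
      rw [ev, one_div_pow]; field_simp
    rw [mul_add, e1] at h2
    linarith

/-- A cell that stays below one. -/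
theorem corCell_of_data (hd : Good d) (hmean : okMean d = true) {p : ℕ} (hlo : d.m0 ≤ p + 1)
    (hhi : p + 1 ≤ d.m1) (hh : decide (d.hi ≤ d.m0) = true) :
    CorCell p ((d.lo : ℝ) / ((p : ℝ) + 2)) ((d.hi : ℝ) / ((p : ℝ) + 2)) := fun ell hl => by
  refine corCell_top hd hmean hlo hhi ell ⟨hl.1, le_min hl.2 (hl.2.trans ?_)⟩
  have h1 : (d.hi : ℝ) ≤ ((d.m0 : ℕ) : ℝ) := by exact_mod_cast of_decide_eq_true hh
  have h2 : ((d.m0 : ℕ) : ℝ) ≤ (p : ℝ) + 1 := by exact_mod_cast hlo
  rw [div_le_one (by positivity)]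
  linarith

end Vale.Agent.P237.Petty.Cor.Band20
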