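import Vale.Agent.P237.Petty.Cor.Band20.Setup

/-!
# P237: the cancelled cell on a piece, dimensions from 20 to 99

Up to `exp ell` the lower box pays a share of the linear term, beyond it the chord gives one; in
both ranges, and on the three lines below the shadow, the square in `δ` is completed.
-/

namespace Vale.Agent.P237.Petty.Cor.Band20

open Set
open Ident (half rate)

variable {p : ℕ} {d : Data} {P : Piece} {y e v δ σ S : ℝ}

/-- The part free of `δ`, with the shadow `L`. -/
noncomputable def freeAt (d : Data) (P : Piece) (y e v L : ℝ) : ℝ :=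
  e * nn toReal d y e * (v - 1) + rem toReal P y e + L +
    2 * (1 + (d.g : ℝ)) * nu toReal d e * cz toReal y e * ((v - 1) ^ 2 / v)

/-- The coefficient of `u δ`. -/
noncomputable def mixAt (d : Data) (y e v : ℝ) : ℝ :=
  -2 * (d.a : ℝ) * cz toReal y e + 2 * (1 - (d.g : ℝ) * d.g) * (nu toReal d e * (y * e)) / v

/-- The share `η` of the linear term leaves a nonnegative square. -/
theorem square_nonneg {L E : ℝ} (hv : 0 < v) (hc : 0 < cz toReal y e)
    (hB : 0 < bsq toReal d y e * v + bdiv toReal d y e)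
    (hσ : σ ∈ Icc (sig toReal d false P y e) (sig toReal d true P y e))
    (hL : ∀ i, 0 ≤ 4 * (bsq toReal d y e * v + bdiv toReal d y e) *
        (cz toReal y e * cz toReal y e) * (v * freeAt d P y e v L) -
      lin toReal d i P y e v E * lin toReal d i P y e v E) :
    0 ≤ freeAt d P y e v L + (y / cz toReal y e * (σ - E) + mixAt d y e v * (v - 1)) * δ +
      (bsq toReal d y e + bdiv toReal d y e / v) * δ ^ 2 := by
  have key : ∀ i, 0 ≤ freeAt d P y e v L +
      (y / cz toReal y e * (sig toReal d i P y e - E) + mixAt d y e v * (v - 1)) * δ +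
      (bsq toReal d y e + bdiv toReal d y e / v) * δ ^ 2 := fun i =>
    disc hv hc hB (by
      simp only [lin, mixAt, toReal]
      push_cast
      field_simp) (hL i)
  have h := between_nonneg (X := freeAt d P y e v L +
      (-(y / cz toReal y e) * E + mixAt d y e v * (v - 1)) * δ)
    (k := y / cz toReal y e) (δ := δ)
    (A := (bsq toReal d y e + bdiv toReal d y e / v) * δ ^ 2) hσ
    (by linarith [key false]) (by linarith [key true])
  linarith

/-- The condition of the square from a claim. -/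
theorem disc_of_claim {X K Q : ℝ} (hK : 0 < K) (h : 0 ≤ Q) (e1 : Q = K * X) : 0 ≤ X :=
  nonneg_of_mul_nonneg_right (e1 ▸ h) hK

/-- The slope lies between its two ends. -/
theorem sig_mem {mu ic : ℝ} (hG : 0 ≤ gg toReal d e) (he : 0 ≤ e) (he1 : e ≤ 1)
    (hc : 0 ≤ cz toReal y e)
    (hic : ic ∈ Icc (quadAt toReal P.icl (y * e)) (quadAt toReal P.icu (y * e)))
    (hmu : mu ∈ Icc (muLo toReal e) (muHi toReal e)) :
    sigAt toReal d y e ic mu ∈ Icc (sig toReal d false P y e) (sig toReal d true P y e) := by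
  have a1 := mul_le_mul_of_nonneg_left hic.1 (mul_nonneg hG (sub_nonneg.2 he1))
  have a2 := mul_le_mul_of_nonneg_left hic.2 (mul_nonneg hG (sub_nonneg.2 he1))
  have b1 := mul_le_mul_of_nonneg_left hmu.1 (mul_nonneg hc (show 0 ≤ 1 + 3 * e by linarith))
  have b2 := mul_le_mul_of_nonneg_left hmu.2 (mul_nonneg hc (show 0 ≤ 1 + 3 * e by linarith))
  simp only [sig, sigAt, cond_false, cond_true, toReal] at a1 a2 b1 b2 ⊢
  push_cast at a1 a2 b1 b2 ⊢
  constructor <;> linarith

/-- The piece of an abscissa. -/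
theorem piece_of_chain : ∀ (L : List Piece) (a : ℚ), okChain d a L = true → ∀ {y : ℝ},
    (a : ℝ) < y → y ≤ (d.z2 : ℝ) * d.m1 → ∃ P ∈ L, y ∈ Ioc (P.ya : ℝ) (P.yb : ℝ)
  | [], a, h, y, h1, h2 => by
    simp only [okChain, decide_eq_true_eq] at h
    have := (Rat.cast_le (K := ℝ)).2 h
    push_cast at this
    linarith
  | P :: L, a, h, y, h1, h2 => by
    simp only [okChain, Bool.and_eq_true, decide_eq_true_eq] at h
    rcases le_or_gt y (P.yb : ℝ) with hy | hy
    · exact ⟨P, List.mem_cons_self, by rw [h.1]; exact h1, hy⟩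
    · obtain ⟨R, hR, hyR⟩ := piece_of_chain L P.yb h.2 hy h2
      exact ⟨R, List.mem_cons_of_mem _ hR, hyR⟩

/-- An affine share is nonnegative on its piece. -/
theorem aff_nonneg {q : Quad} (h : okAff d P q = true) (hy : y ∈ Icc (P.ya : ℝ) (P.yb : ℝ))
    (he : e ∈ Icc (eLo d : ℝ) (P.eh : ℝ)) : 0 ≤ affAt toReal q y e := by
  simp only [okAff, Bool.and_eq_true, decide_eq_true_eq] at h
  obtain ⟨⟨⟨h1, h2⟩, h3⟩, h4⟩ := h
  have r1 := (Rat.cast_le (K := ℝ)).2 h1
  have r2 := (Rat.cast_le (K := ℝ)).2 h2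
  have r3 := (Rat.cast_le (K := ℝ)).2 h3
  have r4 := (Rat.cast_le (K := ℝ)).2 h4
  push_cast at r1 r2 r3 r4
  simp only [affAt, toReal]
  have a1 := affine_nonneg (c := (q.q0 : ℝ) + q.q2 * (eLo d : ℝ)) (b := (q.q1 : ℝ)) hy
    (by linarith) (by linarith)
  have a2 := affine_nonneg (c := (q.q0 : ℝ) + q.q2 * (P.eh : ℝ)) (b := (q.q1 : ℝ)) hy
    (by linarith) (by linarith)
  exact affine_nonneg (c := (q.q0 : ℝ) + q.q1 * y) (b := (q.q2 : ℝ)) he (by linarith) (by linarith)

/-- The facts at a state on a piece. -/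
structure Here (d : Data) (p : ℕ) (P : Piece) (s : ℝ) : Prop where
  y_mem : yv p s ∈ Icc (P.ya : ℝ) (P.yb : ℝ)
  e_mem : ev p ∈ Icc (eLo d : ℝ) (P.eh : ℝ)
  z_mem : s ^ 2 ∈ Icc ((P.ya * eLo d : ℚ) : ℝ) ((P.yb * P.eh : ℚ) : ℝ)
  x_mem : √((p : ℝ) + 3) * s ∈ Icc (P.xa : ℝ) (P.xb : ℝ)

theorem here_of_mem (F : Facts d p) (hP : okPiece d P = true) {s : ℝ} (hs : 0 < s)
    (hy : yv p s ∈ Ioc (P.ya : ℝ) (P.yb : ℝ)) (hz : s ^ 2 ≤ (d.z2 : ℝ)) : Here d p P s := by
  simp only [okPiece, Bool.and_eq_true, Bool.or_eq_true, decide_eq_true_eq] at hP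
  obtain ⟨⟨⟨⟨⟨⟨⟨⟨⟨⟨⟨⟨⟨⟨⟨h1, -⟩, -⟩, h4⟩, -⟩, h6⟩, h7⟩, h8⟩, h9⟩, -⟩, -⟩, -⟩, -⟩, -⟩, -⟩, -⟩ := hP
  have r1 := (Rat.cast_le (K := ℝ)).2 h1
  have r6 := (Rat.cast_le (K := ℝ)).2 h6
  have r7 := (Rat.cast_le (K := ℝ)).2 h7
  have r8 := (Rat.cast_le (K := ℝ)).2 h8
  have r9 := (Rat.cast_le (K := ℝ)).2 h9
  push_cast at r1 r6 r7 r8 r9
  have he0 := F.e_pos
  have hm : (0 : ℝ) < (p : ℝ) + 1 := by positivity
  have hze := yv_mul_ev p s
  have he : ev p ∈ Icc (eLo d : ℝ) (P.eh : ℝ) := by
    refine ⟨F.e_mem.1, ?_⟩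
    rcases h4 with h | h
    · exact F.e_mem.2.trans (by exact_mod_cast h)
    · have r := (Rat.cast_le (K := ℝ)).2 h
      push_cast at r
      refine le_of_mul_le_mul_left ?_ (lt_of_le_of_lt r1 hy.1)
      have he2 : (0 : ℝ) ≤ (P.eh : ℝ) := by
        have := F.z2_pos
        by_contra hn
        nlinarith
      calc yv p s * ev p = s ^ 2 := hze
        _ ≤ (d.z2 : ℝ) := hz
        _ ≤ (P.eh : ℝ) * P.ya := r
        _ ≤ yv p s * P.eh := by rw [mul_comm]; exact mul_le_mul_of_nonneg_right hy.1.le he2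
  have hX : (√((p : ℝ) + 3) * s) ^ 2 = yv p s * (1 + 2 * ev p) := by
    rw [mul_pow, Real.sq_sqrt (by positivity), yv, ev]
    field_simp
    ring
  have hy0 : 0 ≤ yv p s := by unfold yv; positivity
  have hyb : 0 ≤ (P.yb : ℝ) := by linarith [hy.2]
  refine ⟨⟨hy.1.le, hy.2⟩, he, ?_, ?_, ?_⟩
  · push_cast
    rw [← hze]
    refine ⟨mul_le_mul hy.1.le he.1 ?_ hy0, mul_le_mul hy.2 he.2 he0.le hyb⟩
    simp only [eLo]
    push_cast
    positivity
  · refine (pow_le_pow_iff_left₀ r6 (by positivity) two_ne_zero).1 (hX ▸ r7.trans ?_)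
    refine mul_le_mul hy.1.le (by linarith [he.1]) ?_ hy0
    simp only [eLo]
    push_cast
    positivity
  · refine (pow_le_pow_iff_left₀ (by positivity) r8 two_ne_zero).1 (hX ▸ le_trans ?_ r9)
    exact mul_le_mul hy.2 (by linarith [he.2]) (by linarith) hyb

/-- The top of `1 / r` on a piece. -/
theorem inv_rate_le_wtop (hd : Good d) (hC : Checks d P) (F : Facts d p) (hP : okPiece d P = true)
    {ell s t a r q : ℝ} (h : FlatState p ell s t a r q) (H : Here d p P s) (h0 : 0 ≤ ell)
    (hE : Real.exp ell ≤ expTop toReal d (ev p)) :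
    1 / r ≤ wtop toReal P (yv p s) (ev p) := by
  simp only [okPiece, Bool.and_eq_true, decide_eq_true_eq] at hP
  obtain ⟨⟨⟨⟨⟨⟨h10, h11⟩, h12⟩, h13⟩, h14⟩, -⟩, -⟩ := hP
  have hs := h.state.s_mem
  have he0 := F.e_pos
  obtain ⟨-, h10⟩ := h10
  have r10 := (Rat.cast_le (K := ℝ)).2 h10
  have r12 := (Rat.cast_le (K := ℝ)).2 h12
  have r13 := (Rat.cast_le (K := ℝ)).2 h13
  have r14 := (Rat.cast_lt (K := ℝ)).2 h14
  push_cast at r10 r12 r13 r14
  set k := √((p : ℝ) + 3) with hk
  set e := ev p with he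
  have hk2 : k ^ 2 = (p : ℝ) + 3 := Real.sq_sqrt (by positivity)
  have hpe : ((p : ℝ) + 1) * e = 1 := by rw [he, ev]; field_simp
  have hpe3 : ((p : ℝ) + 3) * e = 1 + 2 * e := by linear_combination hpe
  set X := k * s with hX
  obtain ⟨htop, htopE⟩ := hC.top_nonneg (X := X) (e := e) H.x_mem H.e_mem
  obtain ⟨U, hU, hU0, hUs, hUb⟩ : ∃ U : ℝ, (bif P.self then X else (P.ub : ℝ)) = U ∧ 0 ≤ U ∧
      U ≤ X ∧ U ≤ (P.ub : ℝ) := by
    have hxm := H.x_mem
    cases hs' : P.self
    · simp only [hs', cond_false, decide_eq_true_eq] at h11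
      exact ⟨_, rfl, r10, ((Rat.cast_le (K := ℝ)).2 h11).trans hxm.1, le_rfl⟩
    · simp only [hs', cond_true, decide_eq_true_eq] at h11
      exact ⟨_, rfl, mul_nonneg (Real.sqrt_nonneg _) hs.1.le, le_rfl,
        hxm.2.trans ((Rat.cast_le (K := ℝ)).2 h11)⟩
  rw [hU] at htop
  have hee : (P.ub : ℝ) * P.ub * e ≤ (P.ub : ℝ) ^ 2 * P.eh := by
    rw [← sq]; exact mul_le_mul_of_nonneg_left H.e_mem.2 (sq_nonneg _)
  set ρ := (P.r0 : ℝ) + P.r1 * e with hρ
  have hK := hC.rho_nonneg (e := e) H.e_mem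
  simp only [claimRho, toReal] at hK
  push_cast at hK
  rw [← hρ] at hK
  have hden : 0 < 1 + 2 * e - (P.ub : ℝ) * P.ub * e := by linarith
  have hUU : U * U ≤ (P.ub : ℝ) * P.ub := mul_le_mul hUb hUb hU0 r10
  have hdenU : 0 < 1 + 2 * e - U * U * e := by
    linarith [mul_le_mul_of_nonneg_right hUU he0.le]
  have hcond : ((p : ℝ) + 1) / ((p : ℝ) + 3) * (1 + U * U / (2 * (((p : ℝ) + 3) - U * U))) ≤ ρ := by
    have e1 : ((p : ℝ) + 1) / ((p : ℝ) + 3) = 1 / (1 + 2 * e) := by
      rw [← hpe3, he, ev]; field_simp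
    have e2 : U * U / (2 * (((p : ℝ) + 3) - U * U)) = U * U * e / (2 * (1 + 2 * e - U * U * e)) := by
      rw [← hpe3, show ((p : ℝ) + 3) * e - U * U * e = (((p : ℝ) + 3) - U * U) * e by ring,
        ← mul_assoc 2, mul_div_mul_right _ _ he0.ne']
    have hmono : U * U * e / (2 * (1 + 2 * e - U * U * e)) ≤
        (P.ub : ℝ) * P.ub * e / (2 * (1 + 2 * e - (P.ub : ℝ) * P.ub * e)) :=
      div_le_div₀ (mul_nonneg (mul_self_nonneg _) he0.le) (mul_le_mul_of_nonneg_right hUU he0.le)
        (by linarith) (by linarith [mul_le_mul_of_nonneg_right hUU he0.le])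
    rw [e1, e2]
    refine (mul_le_mul_of_nonneg_left ((add_le_add_iff_left 1).2 hmono) (by positivity)).trans ?_
    rw [one_div_mul_eq_div, div_le_iff₀ (by linarith), one_add_div (by linarith),
      div_le_iff₀ (by linarith)]
    linarith
  have hρ0 : 0 ≤ ρ := le_trans (by
    have : 0 ≤ U * U / (2 * (((p : ℝ) + 3) - U * U)) := by
      refine div_nonneg (mul_self_nonneg _) ?_
      have : U * U * e ≤ ((p : ℝ) + 3) * e := by linarith
      linarith [le_of_mul_le_mul_right this he0]
    positivity) hcond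
  have hx2 : U * U * ρ ≤ 2 := by
    refine (mul_le_mul_of_nonneg_right hUU hρ0).trans ?_
    rw [← sq, hρ]
    have := affine_nonneg (c := 2 - (P.ub : ℝ) ^ 2 * P.r0) (b := -((P.ub : ℝ) ^ 2 * P.r1))
      H.e_mem (by linarith) (by linarith)
    linarith
  have hcu : 0 < expLow toReal (1 / 2 * (U * U * ρ)) := by
    have x0 : 0 ≤ 1 / 2 * (U * U * ρ) := by positivity
    have x1 : 1 / 2 * (U * U * ρ) ≤ 1 := by linarith
    generalize 1 / 2 * (U * U * ρ) = x at x0 x1
    have x2 : x * x ≤ 1 := mul_le_one₀ x1 x0 x1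
    simp only [expLow, toReal]
    push_cast
    nlinarith [mul_nonneg x0 (sub_nonneg.2 x1), mul_nonneg (mul_nonneg x0 x0) (sub_nonneg.2 x1),
      mul_nonneg (mul_nonneg (mul_nonneg x0 x0) x0) (sub_nonneg.2 x1),
      mul_nonneg (mul_nonneg (mul_nonneg x0 x0) (mul_nonneg x0 x0)) (sub_nonneg.2 x1)]
  have hH : half (p + 1) * k ≤ (d.h0 : ℝ) + d.h1 * e := by
    obtain ⟨T, hT⟩ := hd.half
    have hc := P100.Bernstein.nonneg_of_certify hT (inBox1 F.e_mem)
    simp only [claimHalf, P100.Bernstein.Expr.eval_sub, P100.Bernstein.Expr.eval_mul,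
      P100.Bernstein.Expr.eval_add, P100.Bernstein.Expr.eval_pow, eval_ofRat,
      P100.Bernstein.Expr.eval_var, List.getD_cons_zero, toReal, ← he] at hc
    push_cast at hc
    have hq := half_sq_sq_le p
    have hh : 0 ≤ half (p + 1) * k := mul_nonneg (Ident.half_pos _).le (Real.sqrt_nonneg _)
    refine (pow_le_pow_iff_left₀ hh (by simpa only [← he] using F.half_nonneg)
      (show (4 : ℕ) ≠ 0 by norm_num)).1 ?_
    rw [show (half (p + 1) * k) ^ 4 = (half (p + 1) ^ 2 * k ^ 2) ^ 2 by ring, hk2]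
    refine hq.trans ?_
    rw [show (2 * (p : ℝ) + 7) / (2 * (p : ℝ) + 5) = (2 + 5 * e) / (2 + 3 * e) by
      rw [he, ev]; field_simp; ring, mul_div_assoc', div_le_iff₀ (by linarith)]
    linarith
  have hX2 : X * X = (1 + 2 * e) * yv p s := by
    rw [hX, show k * s * (k * s) = k ^ 2 * s ^ 2 by ring, hk2, ← hpe3, he, yv, ev]
    field_simp
  have hze := yv_mul_ev p s
  rw [← he] at hze
  have hc : 0 < 1 - s ^ 2 := by nlinarith [hs.1, hs.2]
  have e12 : (0 : ℝ) < (1 + 2 * e) * (1 + 2 * e) := by positivity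
  have ew : wnum toReal P X e * (1 + 2 * e - X * X * e) =
      (1 + 2 * e) * (1 + 2 * e) * (wtop toReal P (yv p s) e * (1 - s ^ 2)) := by
    rw [wnum, hX2]
    simp only [wtop, toReal]
    push_cast
    linear_combination (-((P.w0 : ℝ) + P.w1 * yv p s + P.w2 * e + P.w3 * (yv p s * e)) *
      (1 + 2 * e) * (1 + 2 * e)) * hze
  simp only [claimTopE, toReal] at htopE
  simp only [claimTop, toReal] at htop
  push_cast at htop htopE
  rw [← hρ] at htop
  rw [ew] at htop htopE
  have hW := inv_rate_le_mills d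
    (fun X h1 h2 => hd.mills_nonneg F.m1_le ⟨F.mills_pos.1, F.mills_pos.2.2.1, F.mills_pos.2.2.2⟩ h1 h2)
    (fun X hX => by
      obtain ⟨q1, q2, -⟩ := F.mills_pos
      have : (0 : ℝ) < d.ma := by exact_mod_cast q1
      have : (0 : ℝ) < d.mb := by exact_mod_cast q2
      simp only [millsN, toReal]
      positivity)
    F.m_le h h0 hE hH hU0 hUs hcond hcu (W := wtop toReal P (yv p s) e * (1 - s ^ 2))
    (le_of_mul_le_mul_left (by linarith) e12) (by
      rw [← hk, ← hX]
      exact le_of_mul_le_mul_left (by linarith) e12)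
  rw [div_eq_mul_one_div, mul_comm] at hW
  exact le_of_mul_le_mul_right hW hc

/-- On a piece the cancelled form is above minus the remainder and the cost of the lower box. -/
theorem piece_ge (hd : Good d) (hC : Checks d P) (F : Facts d p) (hP : okPiece d P = true)
    {ell s t a r q : ℝ} (h : FlatState p ell s t a r q) (H : Here d p P s) (h0 : 0 ≤ ell)
    (hE : Real.exp ell ≤ expTop toReal d (ev p)) :
    -(rem toReal P (yv p s) (ev p) + (Real.exp ell - 1) * affAt toReal P.ea (yv p s) (ev p) *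
        (((1 + 3 * ev p) * yv p s + 2) /
          ((1 + 2 * ev p) * ((1 + 2 * ev p) * yv p s + 3)))) ≤
      coreAt d (yv p s) (ev p) (1 / r) ((t - s) / s)
        (sigAt toReal d (yv p s) (ev p) (1 / arc s) (Ident.muMin p))
        (gamM p d * Ident.b0 p * (1 / a - 1 / arc s) -
          gg toReal d (ev p) / arc s * (1 / r - 1)) := by
  have hW := inv_rate_le_wtop hd hC F hP h H h0 hE
  simp only [okPiece, Bool.and_eq_true] at hP
  obtain ⟨⟨-, hea⟩, heb⟩ := hP
  have hs := h.state.s_mem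
  have hr := h.state.rate_pos
  have harc := h.state.arc_pos'
  have hη := aff_nonneg hea H.y_mem H.e_mem
  have hη' := aff_nonneg heb H.y_mem H.e_mem
  obtain ⟨hic0, hic1⟩ := hC.arc_quads hs H.z_mem
  have hze := yv_mul_ev p s
  have he0 := F.e_pos
  set y := yv p s with hy
  set e := ev p with he
  have hy0 : 0 < y := by
    rw [hy, yv]
    have := hs.1
    positivity
  have hcz : cz toReal y e = 1 - s ^ 2 := by simp [cz, toReal, hze]
  have hc : 0 < cz toReal y e := by rw [hcz]; nlinarith [hs.1, hs.2]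
  have he1 : e ≤ 1 := by
    rw [he, ev, div_le_one (by positivity)]
    linarith [(Nat.cast_nonneg p : (0 : ℝ) ≤ p)]
  have hpe : ((p : ℝ) + 1) * e = 1 := by rw [he, ev]; field_simp
  have hpy : ((p : ℝ) + 3) * s ^ 2 = (1 + 2 * e) * y := by
    rw [← hze]; linear_combination y * hpe
  have hG := F.gg_pos
  have hV := F.nu_nonneg
  simp only [nuM, ← he] at hG hV
  obtain ⟨hmu1, hmu2⟩ := muMin_bounds F.p_ge F.p_le
  have hσ := sig_mem (P := P) (d := d) (y := y) (mu := Ident.muMin p) (ic := 1 / arc s) hG.le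
    he0.le he1 hc.le ⟨hze ▸ hic0, hze ▸ hic1⟩
    ⟨le_of_eq_of_le (by simp [muLo, toReal, he, ev]) hmu1,
      hmu2.trans_eq (by simp [muHi, toReal, he, ev])⟩
  have hgap := F.gap
  simp only [nuM, ← he] at hgap
  have hK0 : 0 ≤ bdiv toReal d y e := by
    simp only [bdiv, toReal]
    have := F.g_pos
    push_cast
    positivity
  have hB0 : 0 < bsq toReal d y e := by
    have := F.a_pos
    have := mul_le_mul_of_nonneg_right hgap hy0.le
    have : 0 ≤ (d.a : ℝ) * (y * e) := by positivity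
    simp only [bsq, toReal] at *
    push_cast
    linarith
  have hgam : 0 ≤ gamM p d := by
    have := Ident.b0_pos p
    rw [gamM, ← he]
    positivity
  have egam : gamM p d * Ident.b0 p / ((p : ℝ) + 1) = gg toReal d e := by
    rw [gamM, ← he]
    have := (Ident.b0_pos p).ne'
    field_simp
  set v := 1 / r with hv
  set δ := (t - s) / s with hδ
  set σ := sigAt toReal d y e (1 / arc s) (Ident.muMin p) with hσd
  set S := gamM p d * Ident.b0 p * (1 / a - 1 / arc s) - gg toReal d e / arc s * (v - 1) with hS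
  have hv0 : 0 < v := one_div_pos.2 hr
  have hBK : 0 < bsq toReal d y e * v + bdiv toReal d y e := by
    linarith [mul_pos hB0 hv0]
  set icu := quadAt toReal P.icu (y * e) with hicu
  have hicu' : 1 / arc s ≤ icu := by rw [hicu, hze]; exact hic1
  have hSp : -(gg toReal d e * icu * ((2 * v + 1) / (2 * (v + 2)) * ((v - 1) ^ 2 / v))) ≤ S := by
    have h1 := shadow_ge_pade h hgam
    rw [egam, ← hv] at h1
    have h2 := mul_le_mul_of_nonneg_left hicu' (mul_nonneg hG.le
      (show 0 ≤ (2 * v + 1) / (2 * (v + 2)) * ((v - 1) ^ 2 / v) by positivity))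
    rw [hS]
    rw [div_eq_mul_one_div (gg toReal d e)] at h1 ⊢
    linarith
  have hrem : rem toReal P y e = e * e * polyAt toReal y e P.rp := rfl
  have hbox : -((Real.exp ell - 1) * affAt toReal P.ea y e * (((1 + 3 * e) * y + 2) /
      ((1 + 2 * e) * ((1 + 2 * e) * y + 3)))) ≤ y / cz toReal y e * affAt toReal P.ea y e * δ := by
    have hb := box_sharp h h0 le_rfl
    have h2 := mul_le_mul_of_nonneg_left hb
      (show 0 ≤ y / cz toReal y e * affAt toReal P.ea y e / s by
        have := hs.1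
        positivity)
    have e1 : y / cz toReal y e * affAt toReal P.ea y e / s * ((Real.exp ell - 1) *
        ((1 - s ^ 2) * ((((p : ℝ) + 4) * s ^ 2 + 2) /
          (((p : ℝ) + 3) * s * (((p : ℝ) + 3) * s ^ 2 + 3))))) =
        (Real.exp ell - 1) * affAt toReal P.ea y e *
          (((1 + 3 * e) * y + 2) / ((1 + 2 * e) * ((1 + 2 * e) * y + 3))) := by
      rw [show ((p : ℝ) + 4) * s ^ 2 = (1 + 3 * e) * y by
        rw [← hze]; linear_combination y * hpe, hpy,
        show ((p : ℝ) + 3) * s * ((1 + 2 * e) * y + 3) =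
          ((1 + 2 * e) * y) * ((1 + 2 * e) * y + 3) / s by
          rw [← hpy]; field_simp, ← hcz]
      have := hs.1.ne'
      field_simp
    rw [e1] at h2
    rw [hδ]
    have := hs.1.ne'
    rw [show y / cz toReal y e * affAt toReal P.ea y e * ((t - s) / s) =
      -(y / cz toReal y e * affAt toReal P.ea y e / s * (s - t)) by field_simp; ring]
    linarith
  rcases le_or_gt v (expTop toReal d e) with hvU | hvU
  · rcases le_or_gt (aLeft P : ℝ) v with hA | hA
    · have hU : v ≤ (d.umax : ℝ) := by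
        obtain ⟨T, hT⟩ := hd.umax
        have hu := P100.Bernstein.nonneg_of_certify hT (inBox1 F.e_mem)
        simp [expTop, eval_ofRat, ← he] at hu
        simp only [expTop, toReal] at hvU hu
        push_cast at hvU hu
        linarith
      have hL : ∀ i, 0 ≤ 4 * (bsq toReal d y e * v + bdiv toReal d y e) *
          (cz toReal y e * cz toReal y e) *
            (v * freeAt d P y e v (-(gg toReal d e * icu *
              ((2 * v + 1) / (2 * (v + 2)) * ((v - 1) ^ 2 / v))))) -
          lin toReal d i P y e v (affAt toReal P.ea y e) *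
            lin toReal d i P y e v (affAt toReal P.ea y e) := fun i => by
        refine disc_of_claim (K := 2 * (v + 2)) (by positivity)
          (hC.upTo_nonneg (y := y) (e := e) i H.y_mem H.e_mem ⟨hA, hU⟩) ?_
        simp only [claimA, free, freeAt, ← hicu, toReal]
        push_cast
        field_simp
        ring
      have hq := square_nonneg (δ := δ) hv0 hc hBK hσ hL
      simp only [freeAt, mixAt] at hq
      simp only [coreAt]
      linarith
    · have hch : P.ch = true := by
        cases hb : P.ch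
        · simp [aLeft, hb] at hA
          linarith
        · rfl
      simp only [aLeft, hch, cond_true] at hA
      push_cast at hA
      obtain ⟨S', hS', hvS⟩ : ∃ S' ∈ [seg0, seg1, seg2], v ∈ Icc (S'.lo : ℝ) (S'.hi : ℝ) := by
        rcases le_total v (1 / 400) with h1 | h1
        · exact ⟨seg0, by simp, by simp only [seg0]; push_cast; exact ⟨hv0.le, h1⟩⟩
        rcases le_total v (1 / 40) with h2 | h2
        · exact ⟨seg1, by simp, by simp only [seg1]; push_cast; exact ⟨h1, h2⟩⟩
        · exact ⟨seg2, by simp, by simp only [seg2]; push_cast; exact ⟨h2, hA.le⟩⟩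
      set m0 := ((S'.c0 : ℝ) + S'.c1 * e + ((S'.k0 : ℝ) + S'.k1 * e) * v) / e with hm0
      have hm1 : (1 : ℝ) ≤ (p : ℝ) + 1 := by linarith [(Nat.cast_nonneg p : (0 : ℝ) ≤ p)]
      have hl := seg_line hS' hm1 (he.trans rfl : e = 1 / ((p : ℝ) + 1)) hv0 hvS
      rw [← hm0] at hl
      have hneg : m0 - (v - 1) ≤ 0 := by linarith [hl.trans (pow_le_dev hm1 hv0.le)]
      have hSl : gg toReal d e * icu * (m0 - (v - 1)) ≤ S := by
        have h1 := shadow_ge_line h hgam hl
        rw [egam] at h1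
        have h2 := mul_le_mul_of_nonpos_right (mul_le_mul_of_nonneg_left hicu' hG.le) hneg
        rw [hS]
        rw [div_eq_mul_one_div (gg toReal d e)] at h1 ⊢
        linarith
      have hL : ∀ i, 0 ≤ 4 * (bsq toReal d y e * v + bdiv toReal d y e) *
          (cz toReal y e * cz toReal y e) *
            (v * freeAt d P y e v (gg toReal d e * icu * (m0 - (v - 1)))) -
          lin toReal d i P y e v (affAt toReal P.ea y e) *
            lin toReal d i P y e v (affAt toReal P.ea y e) := fun i => by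
        refine disc_of_claim (K := e) he0 (hC.small_nonneg (y := y) (e := e) hch i hS' H.y_mem H.e_mem hvS) ?_
        simp only [claimC, freeAt, ← hicu, hm0, toReal]
        push_cast
        field_simp
        ring
      have hq := square_nonneg (δ := δ) hv0 hc hBK hσ hL
      simp only [freeAt, mixAt] at hq
      simp only [coreAt]
      linarith
  · set U := expTop toReal d e with hU
    have hgain : (v - U) * (cz toReal y e / ((1 + 2 * e) * y + 1)) ≤ δ := by
      have hg := gain_high h (lt_of_le_of_lt hE hvU)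
      rw [hpy, ← hcz, ← hv, ← hδ] at hg
      refine le_trans (mul_le_mul_of_nonneg_right (by linarith) ?_) hg
      positivity
    have hshare : affAt toReal P.eb y e * y * (v - U) / ((1 + 2 * e) * y + 1) ≤
        y / cz toReal y e * affAt toReal P.eb y e * δ := by
      refine le_trans (le_of_eq ?_) (mul_le_mul_of_nonneg_left hgain
        (mul_nonneg (div_nonneg hy0.le hc.le) hη'))
      field_simp
    obtain ⟨T, hT⟩ := hd.bot
    have hbot := P100.Bernstein.nonneg_of_certify hT (inBox1 F.e_mem)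
    simp [expTop, expBot, eval_ofRat, ← he] at hbot
    simp only [hU, expTop, expBot, toReal] at hbot hvU
    push_cast at hbot hvU
    have hbot' : expBot toReal d e < v := by
      simp only [expBot, toReal]
      linarith
    set σ' := (v - expBot toReal d e) / (wtop toReal P y e - expBot toReal d e) with hσ'
    have hwb : 0 < wtop toReal P y e - expBot toReal d e := by linarith
    have hσm : σ' ∈ Icc (0 : ℝ) 1 :=
      ⟨div_nonneg (by linarith) hwb.le, (div_le_one hwb).2 (by linarith)⟩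
    have ev' : expBot toReal d e + σ' * (wtop toReal P y e - expBot toReal d e) = v := by
      rw [hσ', div_mul_cancel₀ _ hwb.ne']
      ring
    have hK : 0 < 2 * (v + 2) * ((1 + 2 * e) * y + 1) := by positivity
    have hL : ∀ i, 0 ≤ 4 * (bsq toReal d y e * v + bdiv toReal d y e) *
        (cz toReal y e * cz toReal y e) *
          (v * freeAt d P y e v (-(gg toReal d e * icu *
            ((2 * v + 1) / (2 * (v + 2)) * ((v - 1) ^ 2 / v))) +
              affAt toReal P.eb y e * y * (v - U) / ((1 + 2 * e) * y + 1))) -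
        lin toReal d i P y e v (affAt toReal P.eb y e) *
          lin toReal d i P y e v (affAt toReal P.eb y e) := fun i => by
      have hb := hC.beyond_nonneg (y := y) (e := e) i H.y_mem H.e_mem hσm
      rw [claimB, ev'] at hb
      refine disc_of_claim hK hb ?_
      simp only [claimBv, free, freeAt, ← hicu, ← hU, toReal]
      push_cast
      field_simp
      ring
    have hq := square_nonneg (δ := δ) hv0 hc hBK hσ hL
    have hcost : 0 ≤ (Real.exp ell - 1) * affAt toReal P.ea y e * (((1 + 3 * e) * y + 2) /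
        ((1 + 2 * e) * ((1 + 2 * e) * y + 3))) := by
      have := sub_nonneg.2 (Real.one_le_exp h0)
      positivity
    simp only [freeAt, mixAt] at hq
    simp only [coreAt]
    linarith

/-- Up to the end of the pieces. -/
theorem bulk_ge (hd : Good d) (hp : InRange d p) {ell s t a r q : ℝ}
    (h : FlatState p ell s t a r q)
    (hl : ell ∈ Icc ((d.lo : ℝ) / ((p : ℝ) + 2)) (min ((d.hi : ℝ) / ((p : ℝ) + 2)) 1))
    (hz : s ^ 2 ≤ (d.z2 : ℝ)) :
    -(ev p ^ 2 * polyAt toReal (yv p s) (ev p) d.terms +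
        (ell - (d.lo : ℝ) / ((p : ℝ) + 2)) * polyAt toReal (yv p s) (ev p) d.mass) ≤
      coreAt d (yv p s) (ev p) (1 / r) ((t - s) / s)
        (sigAt toReal d (yv p s) (ev p) (1 / arc s) (Ident.muMin p))
        (gamM p d * Ident.b0 p * (1 / a - 1 / arc s) -
          gg toReal d (ev p) / arc s * (1 / r - 1)) := by
  have F := hd.facts hp
  have hs := h.state.s_mem
  have hy : (0 : ℝ) < yv p s := by
    rw [yv]
    have := hs.1
    positivity
  have hym : yv p s ≤ (d.z2 : ℝ) * d.m1 := by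
    rw [yv, mul_comm]
    exact mul_le_mul hz F.m_le (by positivity) F.z2_pos.le
  obtain ⟨P, hPm, hyP⟩ := piece_of_chain d.pieces 0 F.chain (by simpa using hy) hym
  have hP := F.piece P hPm
  have H := here_of_mem F hP hs.1 hyP hz
  have hC := hd.checks P hPm
  have he0 := F.e_pos
  have hp2 : (0 : ℝ) < (p : ℝ) + 2 := by positivity
  have h0 : 0 ≤ ell := le_trans (div_nonneg F.lo_pos.le hp2.le) hl.1
  have en : ∀ c : ℝ, c / ((p : ℝ) + 2) = c * ev p / (1 + ev p) := fun c => by
    rw [ev]; field_simp; ring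
  have hlh : ell ≤ (d.hi : ℝ) / ((p : ℝ) + 2) := hl.2.trans (min_le_left _ _)
  have hU : 1 + (d.hi : ℝ) / ((p : ℝ) + 2) + ((d.hi : ℝ) / ((p : ℝ) + 2)) ^ 2 / 2 +
      ((d.hi : ℝ) / ((p : ℝ) + 2)) ^ 3 / 6 + ((d.hi : ℝ) / ((p : ℝ) + 2)) ^ 4 / 24 +
      ((d.hi : ℝ) / ((p : ℝ) + 2)) ^ 5 / 100 ≤ expTop toReal d (ev p) := by
    obtain ⟨T, hT⟩ := hd.exp
    have hc := P100.Bernstein.nonneg_of_certify hT (inBox1 F.e_mem)
    simp only [claimExp, expTop, P100.Bernstein.Expr.eval_sub, P100.Bernstein.Expr.eval_mul,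
      P100.Bernstein.Expr.eval_add, P100.Bernstein.Expr.eval_pow, eval_ofRat,
      P100.Bernstein.Expr.eval_var, List.getD_cons_zero, toReal] at hc
    push_cast at hc
    simp only [expTop, toReal]
    push_cast
    rw [en]
    have h1e : (0 : ℝ) < (1 + ev p) ^ 5 := by positivity
    refine le_of_mul_le_mul_right (le_trans (le_of_eq ?_) (le_of_sub_nonneg hc)) h1e
    field_simp
  obtain ⟨hE, hexp⟩ := exp_le_top h0 hlh (hl.2.trans (min_le_right _ _))
    (div_pos (F.lo_pos.trans_le F.lo_le) hp2) hU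
  have hb := piece_ge hd hC F hP h H h0 hE
  refine le_trans (neg_le_neg ?_) hb
  have hM := hC.mass_nonneg H.y_mem H.e_mem
  have hR := hC.rest_nonneg H.y_mem H.e_mem
  have hη := aff_nonneg (by simp only [okPiece, Bool.and_eq_true] at hP; exact hP.1.2)
    H.y_mem H.e_mem
  set y := yv p s
  set e := ev p
  simp only [claimMass, toReal] at hM
  simp only [claimRest, toReal] at hR
  push_cast at hM hR
  have hhi : 0 < (d.hi : ℝ) := F.lo_pos.trans_le F.lo_le
  have hexp' : Real.exp ell - 1 ≤ ell * ((1 + e) * ((d.u1 : ℝ) + d.u2 * e) / d.hi) := by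
    refine hexp.trans (le_of_eq ?_)
    rw [en]
    simp only [expTop, toReal]
    push_cast
    field_simp
    ring
  set D := (1 + 2 * e) * ((1 + 2 * e) * y + 3) with hD
  have hD0 : 0 < D := by positivity
  set N := affAt toReal P.ea y e * ((1 + 3 * e) * y + 2) with hN
  have hN0 : 0 ≤ N := by positivity
  set C0 := (1 + e) * ((d.u1 : ℝ) + d.u2 * e) / d.hi * (N / D) with hC0
  have hcost : (Real.exp ell - 1) * affAt toReal P.ea y e * (((1 + 3 * e) * y + 2) / D) ≤
      ell * C0 := by
    rw [show (Real.exp ell - 1) * affAt toReal P.ea y e * (((1 + 3 * e) * y + 2) / D) =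
      (Real.exp ell - 1) * (N / D) by rw [hN]; ring, hC0, ← mul_assoc ell]
    exact mul_le_mul_of_nonneg_right hexp' (div_nonneg hN0 hD0.le)
  have hCM : C0 ≤ polyAt toReal y e d.mass := by
    rw [hC0, div_mul_div_comm, div_le_iff₀ (mul_pos hhi hD0), hD, hN]
    simp only [affAt, toReal] at hM ⊢
    linarith
  have hCR : (d.lo : ℝ) / ((p : ℝ) + 2) * C0 + rem toReal P y e ≤
      e ^ 2 * polyAt toReal y e d.terms := by
    have h1 := mul_le_mul_of_nonneg_left
      (le_of_sub_nonneg hR) (show 0 ≤ e / D by positivity)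
    have e1 : (d.lo : ℝ) / ((p : ℝ) + 2) * C0 =
        e / D * ((d.lo : ℝ) / d.hi * ((d.u1 : ℝ) + d.u2 * e) * N) := by
      rw [en, hC0]
      field_simp
    have e2 : e / D * (e * (polyAt toReal y e d.terms - polyAt toReal y e P.rp) *
        (1 + 2 * e) * ((1 + 2 * e) * y + 3)) =
        e ^ 2 * polyAt toReal y e d.terms - rem toReal P y e := by
      rw [hD, rem]
      field_simp
    rw [e1]
    rw [hN] at hN0 ⊢
    linarith
  have h3 := mul_le_mul_of_nonneg_left hCM (sub_nonneg.2 hl.1)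
  linarith

end Vale.Agent.P237.Petty.Cor.Band20
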