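import Vale.Agent.P237.Petty.Cor.Band20.Shadow
import Vale.Agent.P237.Petty.Cor.Top.Tail

/-!
# P237: the cancelled cell in dimensions from 20 to 99, exactly

The potentials of a set of constants, the facts behind its Boolean condition, and the cancelled cell
as a quadratic in `δ = (t - s) / s`.
-/

namespace Vale.Agent.P237.Petty.Cor.Band20

open Set
open Ident (half rate)

variable {p : ℕ} {d : Data}

/-- The small parameter. -/
noncomputable def ev (p : ℕ) : ℝ := 1 / ((p : ℝ) + 1)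

/-- The abscissa, squared and scaled. -/
noncomputable def yv (p : ℕ) (s : ℝ) : ℝ := ((p : ℝ) + 1) * s ^ 2

/-- The multiplier of the shadow. -/
noncomputable def gamM (p : ℕ) (d : Data) : ℝ :=
  gg toReal d (ev p) * ((p : ℝ) + 1) / Ident.b0 p

/-- The multiplier of the excess. -/
noncomputable def nuM (p : ℕ) (d : Data) : ℝ := nu toReal d (ev p)

/-- The linear potential. -/
noncomputable def potK (p : ℕ) (d : Data) (s : ℝ) : ℝ :=
  -gg toReal d (ev p) / arc s + ev p * nn toReal d (yv p s) (ev p)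

/-- Its derivative. -/
noncomputable def potK' (p : ℕ) (d : Data) (s : ℝ) : ℝ :=
  -gg toReal d (ev p) * s / arc s ^ 3 + 2 * s * nd toReal d (yv p s) (ev p)

/-- The square potential. -/
noncomputable def potB (d : Data) (s : ℝ) : ℝ := -(d.a : ℝ) * (1 - s ^ 2) / s

/-- Its derivative. -/
noncomputable def potB' (d : Data) (s : ℝ) : ℝ := (d.a : ℝ) * (1 + 1 / s ^ 2)

/-- The orders of a set of constants. -/
structure InRange (d : Data) (p : ℕ) : Prop where
  /-- The least. -/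
  lo : d.m0 ≤ p + 1
  /-- The largest. -/
  hi : p + 1 ≤ d.m1

theorem affine_nonneg {c b x A B : ℝ} (hx : x ∈ Icc A B) (hA : 0 ≤ c + b * A)
    (hB : 0 ≤ c + b * B) : 0 ≤ c + b * x := by
  rcases le_total 0 b with h | h
  · linarith [mul_le_mul_of_nonneg_left hx.1 h]
  · linarith [mul_le_mul_of_nonpos_left hx.2 h]

/-- The facts used at an order. -/
structure Facts (d : Data) (p : ℕ) : Prop where
  p_ge : 18 ≤ p
  p_le : p ≤ 97
  m_le : (p : ℝ) + 1 ≤ d.m1
  m1_le : (d.m1 : ℝ) ≤ 98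
  e_mem : ev p ∈ Icc (eLo d : ℝ) (eHi d : ℝ)
  e_pos : 0 < ev p
  g_pos : 0 < (d.g : ℝ)
  g_le : (d.g : ℝ) ≤ 1
  a_pos : 0 < (d.a : ℝ)
  nu_nonneg : 0 ≤ nuM p d
  gg_pos : 0 < gg toReal d (ev p)
  gap : nuM p d * (1 + 3 * ev p) * (d.g : ℝ) ^ 2 ≤ d.a
  lo_pos : 0 < (d.lo : ℝ)
  lo_le : (d.lo : ℝ) ≤ d.hi
  hi_le : (d.hi : ℝ) * ev p ≤ 2
  half_nonneg : 0 ≤ (d.h0 : ℝ) + d.h1 * ev p
  mills_pos : 0 < d.ma ∧ 0 < d.mb ∧ 0 < d.mc ∧ 0 < d.md
  z2_pos : 0 < (d.z2 : ℝ)
  z2_lt : (d.z2 : ℝ) < 1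
  chain : okChain d 0 d.pieces = true
  piece : ∀ P ∈ d.pieces, okPiece d P = true

theorem facts_of_ok (h : okData d = true) (hp : InRange d p) : Facts d p := by
  simp only [okData, Bool.and_eq_true, decide_eq_true_eq, List.all_eq_true] at h
  obtain ⟨⟨⟨⟨⟨⟨⟨⟨⟨⟨⟨⟨⟨⟨⟨⟨⟨⟨⟨⟨⟨⟨⟨c1, c2⟩, c3⟩, c4⟩, c5⟩, c6⟩, c7⟩, c8⟩, c9⟩, c10⟩, c11⟩, c12⟩,
    c13⟩, c14⟩, c15⟩, c16⟩, c17⟩, c18⟩, c19⟩, c20⟩, c21⟩, c22⟩, c23⟩, c24⟩ := h
  have hlo := hp.lo
  have hhi := hp.hi
  have hm0 : (19 : ℝ) ≤ d.m0 := by exact_mod_cast c1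
  have hlo' : (d.m0 : ℝ) ≤ (p : ℝ) + 1 := by exact_mod_cast hlo
  have hhi' : (p : ℝ) + 1 ≤ d.m1 := by exact_mod_cast hhi
  have hm1 : (d.m1 : ℝ) ≤ 98 := by exact_mod_cast c3
  have he : ev p ∈ Icc (eLo d : ℝ) (eHi d : ℝ) := by
    simp only [ev, eLo, eHi]
    push_cast
    exact ⟨one_div_le_one_div_of_le (by positivity) hhi', one_div_le_one_div_of_le (by linarith) hlo'⟩
  have he0 : 0 < ev p := by unfold ev; positivity
  have r4 := (Rat.cast_lt (K := ℝ)).2 c4
  have r5 := (Rat.cast_le (K := ℝ)).2 c5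
  have r6 := (Rat.cast_lt (K := ℝ)).2 c6
  have r7 := (Rat.cast_le (K := ℝ)).2 c7
  have r8 := (Rat.cast_le (K := ℝ)).2 c8
  have r9 := (Rat.cast_lt (K := ℝ)).2 c9
  have r10 := (Rat.cast_lt (K := ℝ)).2 c10
  have r11 := (Rat.cast_le (K := ℝ)).2 c11
  have r12 := (Rat.cast_lt (K := ℝ)).2 c12
  have r13 := (Rat.cast_le (K := ℝ)).2 c13
  have r14 := (Rat.cast_le (K := ℝ)).2 c14
  have r15 := (Rat.cast_le (K := ℝ)).2 c15
  have r16 := (Rat.cast_le (K := ℝ)).2 c16
  have r21 := (Rat.cast_lt (K := ℝ)).2 c21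
  have r22 := (Rat.cast_lt (K := ℝ)).2 c22
  simp only [nuMax] at r11
  push_cast at r4 r5 r6 r7 r8 r9 r10 r11 r12 r13 r14 r15 r16 r21 r22
  have hn : 0 ≤ nuM p d := by
    simp only [nuM, nu, toReal]
    exact affine_nonneg he r7 r8
  have hnmax : nuM p d ≤ max ((d.n0 : ℝ) + d.n1 * eLo d) ((d.n0 : ℝ) + d.n1 * eHi d) := by
    simp only [nuM, nu, toReal]
    rcases le_total 0 (d.n1 : ℝ) with h | h
    · exact le_max_of_le_right (by linarith [mul_le_mul_of_nonneg_left he.2 h])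
    · exact le_max_of_le_left (by linarith [mul_le_mul_of_nonpos_left he.1 h])
  refine ⟨by omega, by omega, hhi', hm1, he, he0, r4, r5, r6, hn, ?_, ?_, r12, r13, ?_, ?_,
    ⟨c17, c18, c19, c20⟩, r21, r22, c23, c24⟩
  · simp only [gg, toReal]
    rcases le_total 0 (d.g1 : ℝ) with h | h
    · linarith [mul_le_mul_of_nonneg_left he.1 h]
    · linarith [mul_le_mul_of_nonpos_left he.2 h]
  · refine le_trans (mul_le_mul_of_nonneg_right (mul_le_mul hnmax
      (by linarith [he.2]) (by linarith) ?_) (sq_nonneg _)) r11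
    exact le_max_of_le_left r7
  · refine le_trans (mul_le_mul_of_nonneg_left he.2 (by linarith)) r14
  · exact affine_nonneg he r15 r16

theorem Good.facts (h : Good d) (hp : InRange d p) : Facts d p := facts_of_ok h.ok hp

theorem yv_mul_ev (p : ℕ) (s : ℝ) : yv p s * ev p = s ^ 2 := by
  rw [yv, ev]; field_simp

theorem hasDerivAt_potK {s : ℝ} (hs : s ∈ Ioo (0 : ℝ) 1) :
    HasDerivAt (potK p d) (potK' p d s) s := by
  have h0 : 0 < 1 - s ^ 2 := by nlinarith [hs.1, hs.2]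
  have hq : 0 < arc s := Real.sqrt_pos.2 h0
  have hd : HasDerivAt arc (-s / arc s) s := by
    refine (((hasDerivAt_pow 2 s).const_sub 1).sqrt h0.ne').congr_deriv ?_
    simp only [arc]
    field_simp
    ring
  have hy : HasDerivAt (yv p) (((p : ℝ) + 1) * (2 * s)) s := by
    refine ((hasDerivAt_pow 2 s).const_mul ((p : ℝ) + 1)).congr_deriv ?_
    push_cast
    ring
  have hn := (hy.fun_mul ((hy.fun_mul
    (((hy.mul_const (ev p)).const_mul (d.l3 : ℝ)).const_add (d.l2 : ℝ))).const_add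
      (d.l1 : ℝ))).const_add (d.l0 : ℝ)
  refine ((((hasDerivAt_const s (-gg toReal d (ev p))).div hd hq.ne').add
    (hn.const_mul (ev p))).congr_deriv ?_).congr_of_eventuallyEq
      (Filter.Eventually.of_forall fun u => ?_)
  · have he : ev p * ((p : ℝ) + 1) = 1 := by rw [ev]; field_simp
    simp only [potK', nd, toReal]
    push_cast
    field_simp
    linear_combination (2 * s * arc s ^ 3 * ((d.l1 : ℝ) +
      yv p s * (2 * d.l2 + 3 * d.l3 * (yv p s * ev p)))) * he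
  · simp only [potK, nn, toReal, Pi.add_apply, Pi.div_apply]

/-- The deficit of the test in `u = 1 / r - 1`. -/
theorem testDef_eq (g s t : ℝ) {r : ℝ} (hr : r ≠ 0) :
    testDef p g s t r = 2 * (1 + g) * (1 - s ^ 2) * ((1 / r - 1) ^ 2 * r) +
      (2 * g * (1 + g) * r - ((p : ℝ) + 4) * g ^ 2) * (t - s) ^ 2 +
        2 * (1 - g ^ 2) * s * r * ((1 / r - 1) * (t - s)) := by
  simp only [testDef]
  field_simp
  ring

/-- The linear coefficient. -/
theorem cancelD_eq {s : ℝ} (hs : s ∈ Ioo (0 : ℝ) 1) :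
    cancelD p (nuM p d) (potK p d) (potK' p d) s * s =
      yv p s / (1 - s ^ 2) *
        sigAt toReal d (yv p s) (ev p) (1 / arc s) (Ident.muMin p) := by
  have hc : 0 < arc s := arc_pos ⟨by linarith [hs.1], hs.2⟩
  have h2 : arc s ^ 2 = 1 - s ^ 2 := Real.sq_sqrt (by nlinarith [hs.1, hs.2])
  have hm : (0 : ℝ) < (p : ℝ) + 1 := by positivity
  have hb := (Ident.b0_pos p).ne'
  have h4 : (p : ℝ) + 4 ≠ 0 := by positivity
  simp only [cancelD, potK, potK', potRate, sigAt, cz, yv_mul_ev, nuM, nuS, sqCoef]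
  simp only [toReal]
  push_cast
  generalize gg (fun q : ℚ => (q : ℝ)) d (ev p) = G
  generalize nn (fun q : ℚ => (q : ℝ)) d (yv p s) (ev p) = N
  generalize nd (fun q : ℚ => (q : ℝ)) d (yv p s) (ev p) = D
  generalize nu (fun q : ℚ => (q : ℝ)) d (ev p) = V
  rw [← h2, yv, ev]
  field_simp
  ring

/-- The quadratic in `δ` left by the shadow `S`. -/
noncomputable def coreAt (d : Data) (y e v δ σ S : ℝ) : ℝ :=
  e * nn toReal d y e * (v - 1) + S +
    2 * (1 + (d.g : ℝ)) * nu toReal d e * cz toReal y e * ((v - 1) ^ 2 / v) +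
    (y / cz toReal y e * σ +
      (-2 * (d.a : ℝ) * cz toReal y e +
        2 * (1 - (d.g : ℝ) * d.g) * (nu toReal d e * (y * e)) / v) * (v - 1)) * δ +
    (bsq toReal d y e + bdiv toReal d y e / v) * δ ^ 2

/-- The cancelled cell in `v = 1 / r` and `δ`. -/
theorem cancelExpr_core {ell s t a r q : ℝ} (h : FlatState p ell s t a r q) :
    cancelExpr p (gamM p d) (nuM p d) ell (fun s t => s + (d.g : ℝ) * (s - t))
        (fun _ _ => 1 + (d.g : ℝ)) (fun _ _ => -(d.g : ℝ)) (quadPot (potK p d) (potB d))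
        (quadPotS (potK p d) (potK' p d) (potB d) (potB' d))
        (quadPotT (potK p d) (potB d)) s t a r =
      ell * wS p (arc s) + coreAt d (yv p s) (ev p) (1 / r) ((t - s) / s)
        (sigAt toReal d (yv p s) (ev p) (1 / arc s) (Ident.muMin p))
        (gamM p d * Ident.b0 p * (1 / a - 1 / arc s) -
          gg toReal d (ev p) / arc s * (1 / r - 1)) := by
  have hs := h.state.s_mem
  have hr := h.state.rate_pos
  have hs0 := hs.1.ne'
  have hz : (1 - s ^ 2) ≠ 0 := by nlinarith [hs.1, hs.2]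
  have hD := cancelD_eq (p := p) (d := d) hs
  rw [Top.cancelExpr_eq _ _ _ _ _ _ _ _ _ _ _ hr.ne', testDef_eq _ _ _ hr.ne',
    show potB' d s - potRate p s * potB d s = (d.a : ℝ) * ((p : ℝ) + 2 + 1 / s ^ 2) from
      (polePot_null p (d.a : ℝ) hs).2]
  rw [show cancelD p (nuM p d) (potK p d) (potK' p d) s * (t - s) =
      cancelD p (nuM p d) (potK p d) (potK' p d) s * s * ((t - s) / s) by field_simp, hD]
  generalize sigAt toReal d (yv p s) (ev p) (1 / arc s) (Ident.muMin p) = σ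
  generalize gamM p d * Ident.b0 p * (1 / a - 1 / arc s) = S
  simp only [coreAt, cz, bsq, bdiv, yv_mul_ev, potB, potK, nuM]
  simp only [toReal]
  push_cast
  generalize nn (fun q : ℚ => (q : ℝ)) d (yv p s) (ev p) = N
  generalize nu (fun q : ℚ => (q : ℝ)) d (ev p) = V
  generalize gg (fun q : ℚ => (q : ℝ)) d (ev p) = G
  rw [yv]
  field_simp
  ring

end Vale.Agent.P237.Petty.Cor.Band20
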