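import Vale.Agent.P237.Petty.Cor.Band20.Good
import Vale.Agent.P237.Petty.Cor.CutQuad

/-!
# P237: the completed square and the lines below the shadow, dimensions from 20 to 99
-/

namespace Vale.Agent.P237.Petty.Cor.Band20

open Set
open Ident (half rate)

variable {p : ℕ}

/-- The completed square in `δ`. -/
theorem disc {B K v c X L bq δ : ℝ} (hv : 0 < v) (hc : 0 < c) (hB : 0 < B * v + K)
    (hL : L = c * v * bq) (h : 0 ≤ 4 * (B * v + K) * (c * c) * (v * X) - L * L) :
    0 ≤ X + bq * δ + (B + K / v) * δ ^ 2 := by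
  refine (mul_nonneg_iff_of_pos_left (show 0 < 4 * (B * v + K) * (c * c) * v by positivity)).1 ?_
  refine (add_nonneg h (sq_nonneg (2 * c * (B * v + K) * δ + L))).trans (le_of_eq ?_)
  rw [hL]
  field_simp
  ring

/-- The linear coefficient may be anywhere between two values that pass. -/
theorem between_nonneg {X k δ lo hi t A : ℝ} (ht : t ∈ Icc lo hi)
    (h0 : 0 ≤ X + k * lo * δ + A) (h1 : 0 ≤ X + k * hi * δ + A) : 0 ≤ X + k * t * δ + A := by
  rcases le_total 0 (k * δ) with h | h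
  · linarith [mul_le_mul_of_nonneg_left ht.1 h]
  · linarith [mul_le_mul_of_nonpos_left ht.2 h]

/-- Below `log (1 / 400)`, `log (1 / 40)` and `log (1 / 5)`. -/
theorem log_consts : (logA : ℝ) ≤ Real.log (1 / 400) ∧ (logB : ℝ) ≤ Real.log (1 / 40) ∧
    (logC : ℝ) ≤ Real.log (1 / 5) := by
  have key : ∀ L : ℝ, ∀ N : ℝ, 0 < N → 0 ≤ L →
      N ≤ ∑ i ∈ Finset.range 24, L ^ i / (i.factorial : ℝ) → -L ≤ Real.log (1 / N) := by
    intro L N hN hL h
    rw [one_div, Real.log_inv, neg_le_neg_iff, Real.log_le_iff_le_exp hN]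
    exact h.trans (Real.sum_le_exp_of_nonneg hL 24)
  have hA : (logA : ℝ) = -(5992 / 1000) := by norm_num [logA]
  have hB : (logB : ℝ) = -(3689 / 1000) := by norm_num [logB]
  have hC : (logC : ℝ) = -(1610 / 1000) := by norm_num [logC]
  refine ⟨hA ▸ key _ 400 (by norm_num) (by norm_num) ?_, hB ▸ key _ 40 (by norm_num) (by norm_num) ?_,
    hC ▸ key _ 5 (by norm_num) (by norm_num) ?_⟩
  all_goals
    simp only [Finset.sum_range_succ, Finset.sum_range_zero, Nat.factorial]
    norm_num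

/-- The logarithm is below `m (v ^ (1 / m) - 1)`. -/
theorem log_le_pow {m v : ℝ} (hm : 0 < m) (hv : 0 < v) :
    Real.log v ≤ m * (v ^ (1 / m) - 1) := by
  have h := mul_le_mul_of_nonneg_left (Real.add_one_le_exp (Real.log v * (1 / m))) hm.le
  rw [← Real.rpow_def_of_pos hv] at h
  rw [show m * (Real.log v * (1 / m) + 1) = Real.log v + m by field_simp] at h
  linarith

/-- `m (v ^ (1 / m) - 1)` is below `v - 1`. -/
theorem pow_le_dev {m v : ℝ} (hm : 1 ≤ m) (hv : 0 ≤ v) : m * (v ^ (1 / m) - 1) ≤ v - 1 := by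
  have h := rpow_one_add_le_one_add_mul_self (s := v - 1) (by linarith) (p := 1 / m)
    (by positivity) ((div_le_one (by linarith)).2 hm)
  rw [add_sub_cancel] at h
  have h2 := mul_le_mul_of_nonneg_left h (show 0 ≤ m by linarith)
  rw [show m * (1 + 1 / m * (v - 1)) = m + (v - 1) by field_simp] at h2
  linarith

/-- The lines of the three ranges are valid. -/
theorem seg_line {S : Seg} (hS : S ∈ [seg0, seg1, seg2]) {m e v : ℝ} (hm : 1 ≤ m) (he : e = 1 / m)
    (hv : 0 < v) (hvS : v ∈ Icc (S.lo : ℝ) (S.hi : ℝ)) :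
    ((S.c0 : ℝ) + S.c1 * e + ((S.k0 : ℝ) + S.k1 * e) * v) / e ≤ m * (v ^ (1 / m) - 1) := by
  obtain ⟨hA, hB, hC⟩ := log_consts
  have hm0 : 0 < m := by linarith
  simp only [List.mem_cons, List.not_mem_nil, or_false] at hS
  rcases hS with rfl | rfl | rfl
  · simp only [seg0] at hvS ⊢
    push_cast at hvS ⊢
    have hx : 400 * v ≤ 1 := by linarith [hvS.2]
    have h1 : 400 * v ≤ (400 * v) ^ (1 / m) := by
      refine (le_of_eq (Real.rpow_one _).symm).trans
        (Real.rpow_le_rpow_of_exponent_ge (by positivity) hx ((div_le_one hm0).2 hm))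
    have h2 : 1 + (logA : ℝ) / m ≤ (1 / 400 : ℝ) ^ (1 / m) := by
      rw [Real.rpow_def_of_pos (by norm_num)]
      refine le_trans ?_ (Real.add_one_le_exp _)
      rw [mul_one_div]
      linarith [div_le_div_of_nonneg_right hA hm0.le]
    have e1 : v ^ (1 / m) = (400 * v) ^ (1 / m) * (1 / 400 : ℝ) ^ (1 / m) := by
      rw [← Real.mul_rpow (by positivity) (by norm_num)]
      congr 1
      ring
    have h3 : 400 * v * (1 + (logA : ℝ) / m) ≤ v ^ (1 / m) := by
      rw [e1]
      refine le_trans ?_ (mul_le_mul_of_nonneg_right h1 (Real.rpow_nonneg (by norm_num) _))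
      exact mul_le_mul_of_nonneg_left h2 (by positivity)
    refine le_trans (le_of_eq ?_) (mul_le_mul_of_nonneg_left (sub_le_sub_right h3 1) hm0.le)
    rw [he]
    field_simp
    ring
  · simp only [seg1] at hvS ⊢
    push_cast at hvS ⊢
    refine le_trans ?_ ((log_chord (by norm_num) (by norm_num) hA hB hvS).trans (log_le_pow hm0 hv))
    rw [he]
    refine le_of_eq ?_
    field_simp
    ring
  · simp only [seg2] at hvS ⊢
    push_cast at hvS ⊢
    refine le_trans ?_ ((log_chord (by norm_num) (by norm_num) hB hC hvS).trans (log_le_pow hm0 hv))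
    rw [he]
    refine le_of_eq ?_
    field_simp
    ring

/-- The exponential below its secant. -/
theorem exp_le_secant {ell h : ℝ} {U : ℝ} (h0 : 0 ≤ ell) (hl : ell ≤ h) (hh : 0 < h)
    (hU : Real.exp h ≤ U) : Real.exp ell - 1 ≤ ell / h * (U - 1) := by
  have hc := convexOn_exp.2 (mem_univ 0) (mem_univ h)
    (sub_nonneg.2 ((div_le_one hh).2 hl)) (div_nonneg h0 hh.le) (by ring)
  simp only [smul_eq_mul, Real.exp_zero] at hc
  rw [show (1 - ell / h) * 0 + ell / h * h = ell by field_simp; ring] at hc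
  linarith [mul_le_mul_of_nonneg_left hU (div_nonneg h0 hh.le)]

/-- The fifth polynomial serves for every top, as long as `ell` stays below one. -/
theorem exp_le_top {ell h U : ℝ} (h0 : 0 ≤ ell) (hl : ell ≤ h) (hl1 : ell ≤ 1) (hh : 0 < h)
    (hU : 1 + h + h ^ 2 / 2 + h ^ 3 / 6 + h ^ 4 / 24 + h ^ 5 / 100 ≤ U) :
    Real.exp ell ≤ U ∧ Real.exp ell - 1 ≤ ell / h * (U - 1) := by
  have hP : ∀ x : ℝ, 0 ≤ x → x ≤ 1 →
      Real.exp x ≤ 1 + x + x ^ 2 / 2 + x ^ 3 / 6 + x ^ 4 / 24 + x ^ 5 / 100 := fun x a b => by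
    refine (Real.exp_bound' a b (n := 5) (by norm_num)).trans (le_of_eq ?_)
    simp only [Finset.sum_range_succ, Finset.sum_range_zero, Nat.factorial]
    push_cast
    ring
  rcases le_or_gt h 1 with h1 | h1
  · have hE := (hP h hh.le h1).trans hU
    exact ⟨(Real.exp_le_exp.2 hl).trans hE, exp_le_secant h0 hl hh hE⟩
  · have hE := hP 1 zero_le_one le_rfl
    norm_num at hE
    have p2 : (1 : ℝ) ≤ h ^ 2 := one_le_pow₀ h1.le
    have p3 : (1 : ℝ) ≤ h ^ 3 := one_le_pow₀ h1.le
    have p4 : (1 : ℝ) ≤ h ^ 4 := one_le_pow₀ h1.le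
    have p5 : (1 : ℝ) ≤ h ^ 5 := one_le_pow₀ h1.le
    refine ⟨(Real.exp_le_exp.2 hl1).trans (hE.trans (le_trans (by linarith) hU)), ?_⟩
    have h2 := exp_le_secant h0 hl1 one_pos (le_refl (Real.exp 1))
    rw [div_one] at h2
    refine h2.trans ?_
    rw [div_mul_eq_mul_div, le_div_iff₀ hh, mul_assoc]
    refine mul_le_mul_of_nonneg_left ?_ h0
    refine le_trans ?_ (sub_le_sub_right hU 1)
    nlinarith [mul_le_mul_of_nonneg_right hE hh.le, mul_le_mul_of_nonneg_left h1.le hh.le,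
      mul_le_mul_of_nonneg_left p2 hh.le, mul_le_mul_of_nonneg_left p3 hh.le,
      mul_le_mul_of_nonneg_left p4 hh.le]

end Vale.Agent.P237.Petty.Cor.Band20
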