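import Vale.Agent.P237.Petty.Cor.Band20.Point

/-!
# P237: the cancelled cell beyond the pieces, dimensions from 20 to 99

Beyond the pieces the part without weight is above a constant times `-(p + 1) / arc s ^ 4`.
-/

namespace Vale.Agent.P237.Petty.Cor.Band20

open Set
open Ident (half rate)

variable {p : ℕ} {d : Data}

/-- Above the multiplier of the shadow. -/
def gTop (d : Data) : ℚ := |d.g0| + |d.g1|

/-- Above the multiplier of the excess. -/
def nuTop (d : Data) : ℚ := |d.n0| + |d.n1|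

/-- Above the linear potential. -/
def nTop (d : Data) : ℚ := |d.l0| / 19 + |d.l1| + d.m1 * (|d.l2| + |d.l3|)

/-- Above the slope, times `arc s`. -/
def slopeTop (d : Data) : ℚ :=
  gTop d + (2 * |d.l1| + 2 * (2 * |d.l2| + 3 * |d.l3|)) + (4 * nuTop d + 4) + nTop d

/-- Above `(1 - s ^ 2) |1 / r - 1|`. -/
def devTop (d : Data) : ℚ :=
  d.umax * (|d.h0| + |d.h1|) * (((d.m1 : ℚ) + 102) / 20 + (d.md / d.mb + d.mc / d.ma)) + d.umax + 1

/-- Above `arc s` beyond the pieces. -/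
def arcTop (d : Data) : ℚ := (1 / 2 + (1 - d.z2) / (1 / 2)) / 2

/-- The factor of the crude bound. -/
def tailFactor (d : Data) : ℚ :=
  gTop d * arcTop d ^ 3 + (gTop d + nTop d) * devTop d * arcTop d / 19 +
    slopeTop d / d.z2 * arcTop d + (10 * nuTop d + d.a * devTop d ^ 2) * arcTop d ^ 4 / 19

theorem arc_le_arcTop {s : ℝ} (hs : s ∈ Ioo (0 : ℝ) 1) (hz : (d.z2 : ℝ) ≤ s ^ 2) :
    arc s ≤ (arcTop d : ℝ) := by
  have h2 : arc s ^ 2 = 1 - s ^ 2 := Real.sq_sqrt (by nlinarith [hs.1, hs.2])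
  simp only [arcTop]
  push_cast
  rw [le_div_iff₀ two_pos, ← sub_le_iff_le_add', le_div_iff₀ (by norm_num)]
  nlinarith [sq_nonneg (arc s - 1 / 2)]

theorem abs_affine {c b x : ℝ} (h0 : 0 ≤ x) (h1 : x ≤ 1) : |c + b * x| ≤ |c| + |b| := by
  refine (abs_add_le _ _).trans ?_
  rw [abs_mul, abs_of_nonneg h0]
  linarith [mul_le_of_le_one_right (abs_nonneg b) h1]

/-- The bounds of the multipliers and of the potential. -/
theorem coef_tops {y e : ℝ} (he : 0 ≤ e) (he1 : e ≤ 1) (hy : 0 ≤ y) (hy1 : y ≤ (d.m1 : ℝ)) (he19 : e ≤ 1 / 19)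
    (hz : y * e ≤ 1) :
    |gg toReal d e| ≤ (gTop d : ℝ) ∧ |nu toReal d e| ≤ (nuTop d : ℝ) ∧
      |e * nn toReal d y e| ≤ (nTop d : ℝ) ∧
        |2 * e * nd toReal d y e| ≤ 2 * |(d.l1 : ℝ)| + 2 * (2 * |(d.l2 : ℝ)| + 3 * |(d.l3 : ℝ)|) := by
  simp only [gTop, nuTop, nTop, gg, nu, nn, nd, toReal]
  push_cast
  have hz0 : 0 ≤ y * e := mul_nonneg hy he
  have hm : (0 : ℝ) ≤ d.m1 := Nat.cast_nonneg _
  refine ⟨abs_affine he he1, abs_affine he he1, ?_, ?_⟩
  · rw [show e * ((d.l0 : ℝ) + y * (d.l1 + y * (d.l2 + d.l3 * (y * e)))) =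
      d.l0 * e + (y * e) * (d.l1 + y * (d.l2 + d.l3 * (y * e))) by ring]
    refine (abs_add_le _ _).trans ?_
    rw [abs_mul, abs_of_nonneg he, abs_mul (y * e), abs_of_nonneg hz0]
    have h2 : |(d.l1 : ℝ) + y * (d.l2 + d.l3 * (y * e))| ≤
        |(d.l1 : ℝ)| + (d.m1 : ℝ) * (|(d.l2 : ℝ)| + |(d.l3 : ℝ)|) := by
      refine (abs_add_le _ _).trans (add_le_add le_rfl ?_)
      rw [abs_mul, abs_of_nonneg hy]
      exact mul_le_mul hy1 (abs_affine hz0 hz) (abs_nonneg _) hm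
    linarith [mul_le_mul_of_nonneg_left he19 (abs_nonneg (d.l0 : ℝ)),
      (mul_le_of_le_one_left (abs_nonneg _) hz).trans h2]
  · rw [show 2 * e * ((d.l1 : ℝ) + y * (2 * d.l2 + 3 * d.l3 * (y * e))) =
      2 * d.l1 * e + 2 * (y * e) * (2 * d.l2 + 3 * d.l3 * (y * e)) by ring]
    refine (abs_add_le _ _).trans ?_
    rw [abs_mul, abs_mul (2 : ℝ), abs_two, abs_of_nonneg he, abs_mul (2 * (y * e)),
      abs_of_nonneg (show 0 ≤ 2 * (y * e) by positivity)]
    refine add_le_add (mul_le_of_le_one_right (by positivity) he1) ?_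
    have h3 := (abs_affine (c := 2 * (d.l2 : ℝ)) (b := 3 * (d.l3 : ℝ)) hz0 hz)
    rw [abs_mul, abs_mul (3 : ℝ), abs_two, show |(3 : ℝ)| = 3 from abs_of_pos (by norm_num)] at h3
    exact mul_le_mul (by linarith) h3 (abs_nonneg _) (by norm_num)

/-- `(1 - s ^ 2) |1 / r - 1|`, crude. -/
theorem dev_le (hd : Good d) (hp : InRange d p) {ell s t a r q : ℝ} (h : FlatState p ell s t a r q)
    (h0 : 0 ≤ ell) (hE : Real.exp ell ≤ (d.umax : ℝ)) :
    (1 - s ^ 2) * |1 / r - 1| ≤ (devTop d : ℝ) := by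
  have F := hd.facts hp
  obtain ⟨q1, q2, q3, q4⟩ := F.mills_pos
  have a1 : (0 : ℝ) < d.ma := by exact_mod_cast q1
  have a2 : (0 : ℝ) < d.mb := by exact_mod_cast q2
  have a3 : (0 : ℝ) < d.mc := by exact_mod_cast q3
  have a4 : (0 : ℝ) < d.md := by exact_mod_cast q4
  have hs := h.state.s_mem
  have hu : 1 ≤ (d.umax : ℝ) := (Real.one_le_exp h0).trans hE
  set k := √((p : ℝ) + 3) with hk
  set K := ((d.m1 : ℝ) + 102) / 20 with hKd
  have hK0 : 0 ≤ K := by positivity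
  have hk10 : k ≤ K := by
    rw [hk, Real.sqrt_le_left hK0, hKd]
    nlinarith [F.m_le, sq_nonneg ((d.m1 : ℝ) - 98)]
  set H := |(d.h0 : ℝ)| + |(d.h1 : ℝ)| with hH
  have he1 : ev p ≤ 1 := by
    rw [ev, div_le_one (by positivity)]
    linarith [(Nat.cast_nonneg p : (0 : ℝ) ≤ p)]
  have hHk : half (p + 1) * k ≤ H := by
    obtain ⟨T, hT⟩ := hd.half
    have hc := P100.Bernstein.nonneg_of_certify hT (inBox1 F.e_mem)
    simp only [claimHalf, P100.Bernstein.Expr.eval_sub, P100.Bernstein.Expr.eval_mul,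
      P100.Bernstein.Expr.eval_add, P100.Bernstein.Expr.eval_pow, eval_ofRat,
      P100.Bernstein.Expr.eval_var, List.getD_cons_zero, toReal] at hc
    push_cast at hc
    refine le_trans ?_ ((le_abs_self _).trans (abs_affine F.e_pos.le he1))
    refine (pow_le_pow_iff_left₀ (mul_nonneg (Ident.half_pos _).le (Real.sqrt_nonneg _))
      F.half_nonneg (show (4 : ℕ) ≠ 0 by norm_num)).1 ?_
    rw [show (half (p + 1) * k) ^ 4 = (half (p + 1) ^ 2 * k ^ 2) ^ 2 by ring, hk,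
      Real.sq_sqrt (by positivity)]
    refine (half_sq_sq_le p).trans ?_
    rw [show (2 * (p : ℝ) + 7) / (2 * (p : ℝ) + 5) = (2 + 5 * ev p) / (2 + 3 * ev p) by
      rw [ev]; field_simp; ring, mul_div_assoc', div_le_iff₀ (by linarith [F.e_pos])]
    linarith
  set c := (d.md : ℝ) / d.mb + (d.mc : ℝ) / d.ma with hc
  have hc0 : 0 < c := by positivity
  set X := k * s with hX
  have hX0 : 0 ≤ X := mul_nonneg (Real.sqrt_nonneg _) hs.1.le
  have hX10 : X ≤ K := (mul_le_of_le_one_right (Real.sqrt_nonneg _) hs.2.le).trans hk10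
  have hH0 : 0 ≤ H := by positivity
  set W := (d.umax : ℝ) * H * (K + c) + d.umax with hW
  have hN : 0 < millsN toReal d X := by
    simp only [millsN, toReal]
    positivity
  have hDN : millsD toReal d X ≤ (K + c) * millsN toReal d X := by
    refine le_trans ?_ (mul_le_mul_of_nonneg_right (add_le_add_left hX10 c) hN.le)
    have t1 : (d.md : ℝ) ≤ c * d.mb := by
      rw [hc, add_mul, div_mul_cancel₀ _ a2.ne']
      linarith [show 0 ≤ (d.mc : ℝ) / d.ma * d.mb by positivity]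
    have t2 : (d.mc : ℝ) ≤ c * d.ma := by
      rw [hc, add_mul, div_mul_cancel₀ _ a1.ne']
      linarith [show 0 ≤ (d.md : ℝ) / d.mb * d.ma by positivity]
    simp only [millsD, millsN, toReal]
    linarith [mul_le_mul_of_nonneg_left t2 hX0, mul_nonneg a2.le hX0,
      mul_nonneg hc0.le (mul_nonneg hX0 hX0)]
  have hb := inv_rate_le_mills d
    (fun X h1 h2 => hd.mills_nonneg F.m1_le ⟨q1, q3, q4⟩ h1 h2)
    (fun X hX => by simp only [millsN, toReal]; positivity)
    F.m_le h h0 hE hHk le_rfl hX0 (ρ := 1) (by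
      rw [mul_zero, zero_div, add_zero, mul_one, div_le_one (by positivity)]
      linarith) (by simp [expLow, toReal]) (W := W) (by
      have : 0 ≤ (d.umax : ℝ) * H * (K + c) := by positivity
      linarith) (by
      rw [← hk, ← hX]
      simp only [zero_mul, mul_zero, sub_zero, expLow, toReal]
      push_cast
      ring_nf
      have h1 := mul_le_mul_of_nonneg_left hDN (show 0 ≤ (d.umax : ℝ) * H by positivity)
      have h2 : 0 ≤ (d.umax : ℝ) * millsN toReal d X := by positivity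
      simp only [hW, toReal] at *
      linarith)
  have hz : 0 ≤ 1 - s ^ 2 := by nlinarith [hs.1, hs.2]
  have hz1 : 1 - s ^ 2 ≤ 1 := by nlinarith
  have hr : 0 < 1 / r := one_div_pos.2 h.state.rate_pos
  have e1 : (devTop d : ℝ) = W + 1 := by
    simp only [devTop, hW, hH, hc, hKd]
    push_cast
    ring
  rw [div_eq_mul_one_div] at hb
  rw [e1, ← abs_of_nonneg hz, ← abs_mul, abs_le]
  constructor <;> nlinarith [mul_nonneg hz hr.le]

/-- The linear part, crude. -/
theorem slope_part (hd : Good d) (hp : InRange d p) {s t : ℝ} (hs : s ∈ Ioo (0 : ℝ) 1)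
    (ht : t ∈ Ioo (0 : ℝ) 1) (hz2 : (d.z2 : ℝ) ≤ s ^ 2) :
    -((slopeTop d : ℝ) / d.z2 * (arcTop d : ℝ) * (((p : ℝ) + 1) / arc s ^ 4)) ≤
      cancelD p (nuM p d) (potK p d) (potK' p d) s * (t - s) := by
  have F := hd.facts hp
  have hc : 0 < arc s := arc_pos ⟨by linarith [hs.1], hs.2⟩
  have hc1 : arc s ≤ 1 := Real.sqrt_le_one.2 (by nlinarith [hs.1])
  have hc2 : arc s ^ 2 = 1 - s ^ 2 := Real.sq_sqrt (by nlinarith [hs.1, hs.2])
  have he0 := F.e_pos
  have hm : (1 : ℝ) ≤ (p : ℝ) + 1 := by linarith [(Nat.cast_nonneg p : (0 : ℝ) ≤ p)]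
  have he1 : ev p ≤ 1 := by rw [ev, div_le_one (by linarith)]; exact hm
  have hs2 : s ^ 2 ≤ 1 := by nlinarith [hs.1, hs.2]
  have hy0 : 0 ≤ yv p s := by unfold yv; positivity
  have hym : yv p s ≤ (p : ℝ) + 1 := mul_le_of_le_one_right (by linarith) hs2
  obtain ⟨hG, hV, hN, hD⟩ := coef_tops (d := d) he0.le he1 hy0
    (hym.trans F.m_le) (by
      rw [ev]
      exact one_div_le_one_div_of_le (by norm_num) (by
        have : (18 : ℝ) ≤ p := by exact_mod_cast F.p_ge
        linarith)) ((yv_mul_ev p s).trans_le hs2)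
  have hlin := cancelD_eq (p := p) (d := d) hs
  have hV0 : 0 ≤ nu toReal d (ev p) := F.nu_nonneg
  have hi : 1 ≤ 1 / arc s := by rw [le_div_iff₀ hc, one_mul]; exact hc1
  set e := ev p with hed
  set y := yv p s with hyd
  set m := (p : ℝ) + 1 with hmd
  have hz0 := F.z2_pos
  rw [show cancelD p (nuM p d) (potK p d) (potK' p d) s * (t - s) =
    cancelD p (nuM p d) (potK p d) (potK' p d) s * s * ((t - s) / s) by
      have := hs.1.ne'; field_simp, hlin]
  have hmu := muMin_bounds F.p_ge F.p_le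
  have he20 : e ≤ 1 / 18 := by
    rw [hed, ev]
    exact one_div_le_one_div_of_le (by norm_num) (by
      have : (18 : ℝ) ≤ p := by exact_mod_cast F.p_ge
      linarith)
  have hmu0 : 0 ≤ Ident.muMin p ∧ Ident.muMin p ≤ 1 := by
    have e0 : (1 : ℝ) / ((p : ℝ) + 1) = e := by rw [hed, ev]
    obtain ⟨u1, u2⟩ := hmu
    rw [e0] at u1 u2
    have he2 := mul_le_mul_of_nonneg_left he20 he0.le
    exact ⟨by linarith [mul_self_nonneg e], by linarith⟩
  have hσ : |sigAt toReal d y e (1 / arc s) (Ident.muMin p)| ≤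
      (slopeTop d : ℝ) * (1 / arc s) := by
    have t1 : |gg toReal d e * (1 - e) * (1 / arc s)| ≤ (gTop d : ℝ) * (1 / arc s) := by
      rw [abs_mul, abs_mul, abs_of_pos (one_div_pos.2 hc),
        abs_of_nonneg (show 0 ≤ 1 - e by linarith)]
      exact mul_le_mul_of_nonneg_right
        ((mul_le_of_le_one_right (abs_nonneg _) (by linarith)).trans hG) (by positivity)
    have hcz : cz toReal y e = 1 - s ^ 2 := by simp [cz, toReal, hyd, hed, yv_mul_ev]
    have t2 : |cz toReal y e * (2 * e * nd toReal d y e -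
        2 * (1 + 3 * e) * (nu toReal d e + 1 / 2 * Ident.muMin p))| ≤
        (2 * |(d.l1 : ℝ)| + 2 * (2 * |(d.l2 : ℝ)| + 3 * |(d.l3 : ℝ)|)) +
          (4 * (nuTop d : ℝ) + 4) := by
      rw [abs_mul, hcz, abs_of_nonneg (show 0 ≤ 1 - s ^ 2 by linarith)]
      refine (mul_le_of_le_one_left (abs_nonneg _) (by linarith [sq_nonneg s])).trans
        ((abs_sub _ _).trans (add_le_add hD ?_))
      rw [abs_mul, abs_of_nonneg (show 0 ≤ 2 * (1 + 3 * e) by linarith),
        abs_of_nonneg (show 0 ≤ nu toReal d e + 1 / 2 * Ident.muMin p by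
          have : 0 ≤ nu toReal d e := hV0
          linarith)]
      refine (mul_le_mul (show 2 * (1 + 3 * e) ≤ 4 by linarith)
        (show nu toReal d e + 1 / 2 * Ident.muMin p ≤ (nuTop d : ℝ) + 1 by
          linarith [(le_abs_self _).trans hV]) (by
          have : 0 ≤ nu toReal d e := hV0
          linarith) (by norm_num)).trans (le_of_eq (by ring))
    simp only [sigAt, slopeTop, toReal] at t1 t2 hN ⊢
    push_cast at t1 t2 hN ⊢
    have t4 := mul_nonneg (add_nonneg ((abs_nonneg _).trans t2) ((abs_nonneg _).trans hN))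
      (sub_nonneg.2 hi)
    rw [abs_le] at t1 t2 hN ⊢
    constructor <;> linarith
  refine (abs_le.1 ?_).1
  rw [abs_mul, abs_mul, abs_of_nonneg (show 0 ≤ y / (1 - s ^ 2) by rw [← hc2]; positivity)]
  have hδ : |(t - s) / s| ≤ 1 / (d.z2 : ℝ) := by
    rw [abs_div, abs_of_pos hs.1]
    exact div_le_div₀ zero_le_one (abs_le.2 ⟨by linarith [hs.2, ht.1], by linarith [hs.1, ht.2]⟩)
      hz0 (hz2.trans (by nlinarith [hs.1, hs.2]))
  have hσ0 : 0 ≤ (slopeTop d : ℝ) :=
    nonneg_of_mul_nonneg_left ((abs_nonneg _).trans hσ) (one_div_pos.2 hc)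
  have hA := arc_le_arcTop (d := d) hs hz2
  refine (mul_le_mul (mul_le_mul (div_le_div_of_nonneg_right hym (by rw [← hc2]; positivity)) hσ
    (abs_nonneg _) (by rw [← hc2]; positivity)) hδ (abs_nonneg _) (by
      rw [← hc2]; positivity)).trans ?_
  rw [← hc2, show m / arc s ^ 2 * ((slopeTop d : ℝ) * (1 / arc s)) * (1 / (d.z2 : ℝ)) =
    (slopeTop d : ℝ) / d.z2 * (m / arc s ^ 3) by field_simp]
  rw [show m / arc s ^ 3 = arc s * (m / arc s ^ 4) by field_simp, ← mul_assoc]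
  exact mul_le_mul_of_nonneg_right (mul_le_mul_of_nonneg_left hA (div_nonneg hσ0 hz0.le))
    (div_nonneg (by linarith) (pow_pos hc 4).le)

/-- The crude bound. -/
theorem tail_ge (hd : Good d) (hp : InRange d p) {ell s t a r q : ℝ}
    (h : FlatState p ell s t a r q) (h0 : 0 ≤ ell) (hE : Real.exp ell ≤ (d.umax : ℝ))
    (hz2 : (d.z2 : ℝ) ≤ s ^ 2) :
    ell * wS p (arc s) - (tailFactor d : ℝ) * (((p : ℝ) + 1) / arc s ^ 4) ≤
      cancelExpr p (gamM p d) (nuM p d) ell (fun s t => s + (d.g : ℝ) * (s - t))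
        (fun _ _ => 1 + (d.g : ℝ)) (fun _ _ => -(d.g : ℝ)) (quadPot (potK p d) (potB d))
        (quadPotS (potK p d) (potK' p d) (potB d) (potB' d))
        (quadPotT (potK p d) (potB d)) s t a r := by
  have F := hd.facts hp
  have hs := h.state.s_mem
  have ht := h.state.t_mem
  have hr := h.state.rate_pos
  have hc := h.state.arc_pos'
  have hc1 : arc s ≤ 1 := Real.sqrt_le_one.2 (by nlinarith [hs.1])
  have hc2 : arc s ^ 2 = 1 - s ^ 2 := Real.sq_sqrt (by nlinarith [hs.1, hs.2])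
  have he0 := F.e_pos
  have hm : (1 : ℝ) ≤ (p : ℝ) + 1 := by linarith [(Nat.cast_nonneg p : (0 : ℝ) ≤ p)]
  have he1 : ev p ≤ 1 := by rw [ev, div_le_one (by linarith)]; exact hm
  have hs2 : s ^ 2 ≤ 1 := by nlinarith [hs.1, hs.2]
  have hy0 : 0 ≤ yv p s := by unfold yv; positivity
  have hym : yv p s ≤ (p : ℝ) + 1 := mul_le_of_le_one_right (by linarith) hs2
  obtain ⟨hG, hV, hN, hD⟩ := coef_tops (d := d) he0.le he1 hy0
    (hym.trans F.m_le) (by
      rw [ev]
      exact one_div_le_one_div_of_le (by norm_num) (by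
        have : (18 : ℝ) ≤ p := by exact_mod_cast F.p_ge
        linarith)) ((yv_mul_ev p s).trans_le hs2)
  have hU := dev_le hd hp h h0 hE
  have hlin := cancelD_eq (p := p) (d := d) hs
  set e := ev p with hed
  set y := yv p s with hyd
  set m := (p : ℝ) + 1 with hmd
  set M := m / arc s ^ 4 with hM
  have hMm : m ≤ M := le_div_self (by linarith) (pow_pos hc 4) (pow_le_one₀ hc.le hc1)
  have hM1 : 1 ≤ M := hm.trans hMm
  have hA := arc_le_arcTop (d := d) hs hz2
  set A := (arcTop d : ℝ) with hAd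
  have hm19 : (19 : ℝ) ≤ m := by
    have : (18 : ℝ) ≤ p := by exact_mod_cast F.p_ge
    linarith
  have hA4 : 1 ≤ A ^ 4 / 19 * M := by
    rw [hM, div_mul_div_comm, le_div_iff₀ (by positivity), one_mul]
    exact mul_comm (A ^ 4) m ▸ (mul_le_mul hm19 (pow_le_pow_left₀ hc.le hA 4) (by positivity)
      (by linarith)).trans_eq rfl
  have hi : 1 ≤ 1 / arc s := by rw [le_div_iff₀ hc, one_mul]; exact hc1
  set Dv := (devTop d : ℝ) with hDv
  have hV0 : 0 ≤ nuM p d := F.nu_nonneg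
  have hG0 : 0 ≤ gg toReal d e := F.gg_pos.le
  have hDv0 : 0 ≤ Dv := le_trans (mul_nonneg (by linarith) (abs_nonneg _)) hU
  rw [Top.cancelExpr_eq _ _ _ _ _ _ _ _ _ _ _ hr.ne',
    show potB' d s - potRate p s * potB d s = (d.a : ℝ) * ((p : ℝ) + 2 + 1 / s ^ 2) from
      (polePot_null p (d.a : ℝ) hs).2]
  have p1 : -(10 * (nuTop d : ℝ) * (A ^ 4 / 19 * M)) - nuM p d * (d.g : ℝ) ^ 2 * ((p : ℝ) + 4) * (t - s) ^ 2 ≤
      nuM p d * testDef p d.g s t r := by
    refine le_trans ?_ (mul_le_mul_of_nonneg_left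
      (Top.testDef_ge F.g_pos.le F.g_le hs ht.2.le hr) hV0)
    have hg2 : (d.g : ℝ) ^ 2 ≤ 1 := pow_le_one₀ F.g_pos.le F.g_le
    have : -2 ≤ 2 * (1 - (d.g : ℝ) ^ 2) * (s * (t - s)) := by
      have := (abs_le.1 (Top.abs_mul_sub_le hs ht)).1
      nlinarith [mul_le_mul_of_nonneg_left this (show 0 ≤ 2 * (1 - (d.g : ℝ) ^ 2) by linarith),
        sq_nonneg (d.g : ℝ)]
    have hn : nuM p d ≤ (nuTop d : ℝ) := (le_abs_self _).trans hV
    have h5 := mul_le_mul_of_nonneg_left this hV0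
    have h6 := mul_le_mul hn hA4 zero_le_one ((abs_nonneg _).trans hV)
    linarith
  have p2 : -((gTop d : ℝ) * A ^ 3 * M) ≤ gamM p d * Ident.b0 p * (1 / a - 1 / arc s) := by
    have hb := Ident.b0_pos p
    rw [show gamM p d * Ident.b0 p = gg toReal d e * m by rw [gamM, ← hed, ← hmd]; field_simp]
    have h4 : gg toReal d e * m * (1 / arc s) ≤ (gTop d : ℝ) * A ^ 3 * M := by
      rw [show gg toReal d e * m * (1 / arc s) = gg toReal d e * arc s ^ 3 * M by
        rw [hM]; field_simp]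
      exact mul_le_mul_of_nonneg_right (mul_le_mul ((le_abs_self _).trans hG)
        (pow_le_pow_left₀ hc.le hA 3) (by positivity) ((abs_nonneg _).trans hG)) (by linarith)
    linarith [mul_nonneg (mul_nonneg hG0 (show 0 ≤ m by linarith))
      (one_div_nonneg.2 h.state.pos.le)]
  have p3 : -(((gTop d : ℝ) + nTop d) * Dv * A / 19 * M) ≤ potK p d s * (1 / r - 1) := by
    have hK : |potK p d s| ≤ ((gTop d : ℝ) + nTop d) / arc s := by
      rw [potK, ← hed, ← hyd, add_div]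
      refine (abs_add_le _ _).trans (add_le_add ?_ ?_)
      · rw [abs_div, abs_neg, abs_of_pos hc]
        exact div_le_div_of_nonneg_right hG hc.le
      · exact hN.trans (le_div_self ((abs_nonneg _).trans hN) hc hc1)
    have hu : |1 / r - 1| ≤ Dv / arc s ^ 2 := by
      rw [le_div_iff₀ (pow_pos hc 2), hc2]
      linarith
    refine (abs_le.1 ?_).1
    rw [abs_mul]
    refine (mul_le_mul hK hu (abs_nonneg _) ((abs_nonneg _).trans hK)).trans ?_
    have hK0 : 0 ≤ ((gTop d : ℝ) + nTop d) * Dv :=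
      mul_nonneg (add_nonneg ((abs_nonneg _).trans hG) ((abs_nonneg _).trans hN)) hDv0
    have h1 : (1 : ℝ) ≤ m / 19 := by linarith
    have h2 := mul_le_mul hA h1 zero_le_one (hc.le.trans hA)
    rw [show ((gTop d : ℝ) + nTop d) * Dv * A / 19 * M =
        ((gTop d : ℝ) + nTop d) * Dv * (A * (m / 19)) / arc s ^ 4 by rw [hM]; ring,
      show ((gTop d : ℝ) + nTop d) / arc s * (Dv / arc s ^ 2) =
        ((gTop d : ℝ) + nTop d) * Dv * (arc s * 1) / arc s ^ 4 by field_simp]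
    exact div_le_div_of_nonneg_right (mul_le_mul_of_nonneg_left h2 hK0) (pow_pos hc 4).le
  have p4 := slope_part hd hp (t := t) hs ht hz2
  rw [← hM] at p4
  have p5 : nuM p d * (d.g : ℝ) ^ 2 * ((p : ℝ) + 4) * (t - s) ^ 2 +
      (d.a : ℝ) / s ^ 2 * (t - s) ^ 2 ≤
      (d.a : ℝ) * ((p : ℝ) + 2 + 1 / s ^ 2) * (t - s) ^ 2 := by
    have hme : m * e = 1 := by rw [hed, ev, hmd]; field_simp
    have e4 : nuM p d * (d.g : ℝ) ^ 2 * ((p : ℝ) + 4) =
        m * (nuM p d * (1 + 3 * e) * (d.g : ℝ) ^ 2) := by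
      linear_combination (-(3 * nuM p d * (d.g : ℝ) ^ 2)) * hme
    have hgap := mul_le_mul_of_nonneg_left F.gap (show 0 ≤ m by linarith)
    rw [← e4] at hgap
    have := mul_le_mul_of_nonneg_right hgap (sq_nonneg (t - s))
    have := mul_nonneg F.a_pos.le (sq_nonneg (t - s))
    rw [show (d.a : ℝ) * ((p : ℝ) + 2 + 1 / s ^ 2) * (t - s) ^ 2 =
      (d.a : ℝ) * (m + 1) * (t - s) ^ 2 + (d.a : ℝ) / s ^ 2 * (t - s) ^ 2 by rw [hmd]; ring]
    linarith
  have p6 : -((d.a : ℝ) / s ^ 2 * (t - s) ^ 2) - (d.a : ℝ) * Dv ^ 2 * (A ^ 4 / 19 * M) ≤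
      2 * potB d s * ((1 / r - 1) * (t - s)) := by
    have h0 := hs.1.ne'
    have e : 2 * potB d s * ((1 / r - 1) * (t - s)) + (d.a : ℝ) / s ^ 2 * (t - s) ^ 2 +
        (d.a : ℝ) * ((1 - s ^ 2) * (1 / r - 1)) ^ 2 =
        (d.a : ℝ) * ((t - s) / s - (1 - s ^ 2) * (1 / r - 1)) ^ 2 := by
      rw [potB]; field_simp; ring
    have h2 : ((1 - s ^ 2) * (1 / r - 1)) ^ 2 ≤ Dv ^ 2 * (A ^ 4 / 19 * M) := by
      refine le_trans ?_ (le_mul_of_one_le_right (sq_nonneg _) hA4)
      rw [← sq_abs, abs_mul, abs_of_nonneg (show 0 ≤ 1 - s ^ 2 by linarith)]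
      exact pow_le_pow_left₀ (by positivity) hU 2
    have h3 := mul_nonneg F.a_pos.le
      (sq_nonneg ((t - s) / s - (1 - s ^ 2) * (1 / r - 1)))
    have h4 := mul_le_mul_of_nonneg_left h2 F.a_pos.le
    rw [← mul_assoc] at h4
    rw [← e] at h3
    generalize (d.a : ℝ) / s ^ 2 * (t - s) ^ 2 = A at h3 ⊢
    generalize (d.a : ℝ) * ((1 - s ^ 2) * (1 / r - 1)) ^ 2 = B at h3 h4
    generalize 2 * potB d s * ((1 / r - 1) * (t - s)) = C at h3 ⊢
    generalize (d.a : ℝ) * Dv ^ 2 * (A ^ 4 / 19 * M) = E at h4 ⊢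
    linarith only [h3, h4]
  simp only [tailFactor]
  push_cast
  rw [← hDv, ← hAd]
  linarith

end Vale.Agent.P237.Petty.Cor.Band20
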